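import Vale.Agent.P194.Ext

/-!
# Relations between group algebra elements pushed through a homomorphism
-/

namespace Vale.Agent.GroupRingKernels

open MonoidAlgebra Vale.Agent.P194

variable {K : Type} [Field K] {G H Q : Type} [Group G] [Group H] [Group Q]

/-- A nonzero row has a nonzero image row satisfying the images of all its right relations. -/
def Transfers {R S : Type} [Semiring R] [Semiring S] (π : R → S) : Prop :=
  ∀ (ι : Type) [Fintype ι] (u : ι → R), (∃ i, u i ≠ 0) →
    ∃ v : ι → S, (∃ i, v i ≠ 0) ∧ ∀ c : ι → R, ∑ i, u i * c i = 0 → ∑ i, v i * π (c i) = 0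

/-- A nonzero row has a row with nonzero augmentation satisfying all its right relations. -/
def Liftable (K : Type) [Field K] (G : Type) [Group G] : Prop :=
  ∀ (ι : Type) [Fintype ι] (u : ι → MonoidAlgebra K G), (∃ i, u i ≠ 0) →
    ∃ v : ι → MonoidAlgebra K G, (∃ i, aug K G (v i) ≠ 0) ∧
      ∀ c : ι → MonoidAlgebra K G, ∑ i, u i * c i = 0 → ∑ i, v i * c i = 0

lemma Liftable.transfers (h : Liftable K G) : Transfers (aug K G) := by
  intro ι _ u hu
  obtain ⟨v, hv, hrel⟩ := h ι u hu
  refine ⟨fun i => aug K G (v i), hv, fun c hc => ?_⟩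
  have := congrArg (aug K G) (hrel c hc)
  simpa [map_sum] using this

/-- The map of group algebras induced by a homomorphism. -/
noncomputable def push (f : G →* Q) : MonoidAlgebra K G →ₐ[K] MonoidAlgebra K Q :=
  mapDomainAlgHom K K f

@[simp] lemma push_single (f : G →* Q) (g : G) (a : K) :
    push f (single g a) = single (f g) a := by
  simp [push, mapDomain_single]

lemma aug_ker (f : G →* Q) (r : G) (z : MonoidAlgebra K G) :
    aug K f.ker (cosetCoeff f.ker r z) = (push f z).coeff (f r) := by
  classical
  induction z using MonoidAlgebra.induction_linear with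
  | zero => simp
  | add u v hu hv => simp only [map_add, coeff_add, Finsupp.add_apply, hu, hv]
  | single s a =>
      simp only [push_single, coeff_single]
      by_cases hs : f s = f r
      · have hm : s * r⁻¹ ∈ f.ker := by simp [MonoidHom.mem_ker, hs]
        have hc : cosetCoeff f.ker r (single s a) = single ⟨s * r⁻¹, hm⟩ a := by
          ext h
          simp only [cosetCoeff_apply, coeff_single]
          by_cases hh : (h : G) * r = s
          · subst hh; simp
          · rw [Finsupp.single_eq_of_ne hh, Finsupp.single_eq_of_ne]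
            intro e; apply hh; simp [e]
        rw [hc, aug_single, hs, Finsupp.single_eq_same]
      · have hc : cosetCoeff f.ker r (single s a) = 0 := by
          ext h
          simp only [cosetCoeff_apply, coeff_single, coeff_zero, Finsupp.zero_apply]
          rw [Finsupp.single_eq_of_ne]
          intro e
          apply hs
          rw [← e, map_mul, MonoidHom.mem_ker.1 h.2, one_mul]
        rw [hc, map_zero, Finsupp.single_eq_of_ne (Ne.symm hs)]

lemma push_coeff_not_range (f : G →* Q) (z : MonoidAlgebra K G) (q : Q) (hq : ∀ g, f g ≠ q) :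
    (push f z).coeff q = 0 := by
  show Finsupp.mapDomain f z.coeff q = 0
  rw [Finsupp.mapDomain_of_notMem_range]
  rintro ⟨g, hg⟩; exact hq g hg

/-- Representatives of the values of f on the supports of a row. -/
lemma exists_reps (f : G →* Q) {ι : Type} [Fintype ι] (u : ι → MonoidAlgebra K G) :
    ∃ T : Finset G, (∀ t ∈ T, ∀ t' ∈ T, f t = f t' → t = t') ∧
      ∀ i, ∀ s ∈ (u i).coeff.support, ∃ t ∈ T, f s = f t := by
  classical
  let D : Finset G := Finset.univ.biUnion fun i => (u i).coeff.support
  let R : Q → G := fun q => if h : ∃ s, f s = q then h.choose else 1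
  have hR : ∀ s, f (R (f s)) = f s := by
    intro s
    have h : ∃ t, f t = f s := ⟨s, rfl⟩
    simp only [R, dif_pos h]
    exact h.choose_spec
  refine ⟨D.image fun s => R (f s), ?_, ?_⟩
  · intro t ht t' ht' h
    obtain ⟨s, -, rfl⟩ := Finset.mem_image.1 ht
    obtain ⟨s', -, rfl⟩ := Finset.mem_image.1 ht'
    rw [hR, hR] at h
    rw [h]
  · intro i s hs
    exact ⟨_, Finset.mem_image_of_mem _ (Finset.mem_biUnion.2 ⟨i, Finset.mem_univ _, hs⟩),
      (hR s).symm⟩

lemma sum_reps (f : G →* Q) (T : Finset G) (hT : ∀ t ∈ T, ∀ t' ∈ T, f t = f t' → t = t')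
    (x : MonoidAlgebra K G) (hx : ∀ s ∈ x.coeff.support, ∃ t ∈ T, f s = f t) :
    ∑ t ∈ T, incl f.ker (cosetCoeff f.ker t x) * single t 1 = x := by
  refine sum_cosets f.ker T x (fun t ht t' ht' h => hT t ht t' ht' ?_) (fun s hs => ?_)
  · simpa [MonoidHom.mem_ker, mul_inv_eq_one] using h
  · obtain ⟨t, ht, h⟩ := hx s hs
    exact ⟨t, ht, by simp [MonoidHom.mem_ker, h]⟩

section Row

variable (f : G →* Q) {ι : Type} [Fintype ι] (u : ι → MonoidAlgebra K G) (T : Finset G)

/-- The coefficients of a row at the chosen representatives. -/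
noncomputable def parts : ι × {t // t ∈ T} → MonoidAlgebra K f.ker :=
  fun p => cosetCoeff f.ker p.2.1 (u p.1)

variable {f u T}

lemma parts_ne_zero (hT : ∀ t ∈ T, ∀ t' ∈ T, f t = f t' → t = t')
    (hx : ∀ i, ∀ s ∈ (u i).coeff.support, ∃ t ∈ T, f s = f t) (hu : ∃ i, u i ≠ 0) :
    ∃ p, parts f u T p ≠ 0 := by
  by_contra h
  simp only [not_exists, not_not] at h
  obtain ⟨i, hi⟩ := hu
  apply hi
  rw [← sum_reps f T hT _ (hx i)]
  refine Finset.sum_eq_zero fun t ht => ?_
  rw [show cosetCoeff f.ker t (u i) = 0 from h (i, ⟨t, ht⟩), map_zero, zero_mul]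

lemma parts_relation (hT : ∀ t ∈ T, ∀ t' ∈ T, f t = f t' → t = t')
    (hx : ∀ i, ∀ s ∈ (u i).coeff.support, ∃ t ∈ T, f s = f t) (c : ι → MonoidAlgebra K G)
    (hc : ∑ i, u i * c i = 0) (r : G) :
    ∑ p : ι × {t // t ∈ T}, parts f u T p * cosetCoeff f.ker r (single p.2.1 1 * c p.1) = 0 := by
  have h0 : cosetCoeff f.ker r (∑ i, u i * c i) = 0 := by rw [hc, map_zero]
  rw [← h0, map_sum, Fintype.sum_prod_type]
  refine Finset.sum_congr rfl fun i _ => ?_
  conv_rhs => rw [← sum_reps f T hT _ (hx i), Finset.sum_mul, map_sum,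
    ← Finset.sum_coe_sort T]
  refine Finset.sum_congr rfl fun t _ => ?_
  rw [mul_assoc, cosetCoeff_incl_mul]
  rfl

/-- Scalars satisfying the relations of the parts give a row over the target. -/
lemma transfer_of_parts (hT : ∀ t ∈ T, ∀ t' ∈ T, f t = f t' → t = t')
    (hx : ∀ i, ∀ s ∈ (u i).coeff.support, ∃ t ∈ T, f s = f t)
    (ψ : ι × {t // t ∈ T} → K) (hψ : ∃ p, ψ p ≠ 0)
    (hrel : ∀ d : ι × {t // t ∈ T} → MonoidAlgebra K f.ker, ∑ p, parts f u T p * d p = 0 → ∑ p, ψ p * aug K f.ker (d p) = 0) :
    ∃ v : ι → MonoidAlgebra K Q, (∃ i, v i ≠ 0) ∧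
      ∀ c : ι → MonoidAlgebra K G, ∑ i, u i * c i = 0 → ∑ i, v i * push f (c i) = 0 := by
  classical
  refine ⟨fun i => ∑ t, single (f t.1) (ψ (i, t)), ?_, fun c hc => ?_⟩
  · obtain ⟨⟨i, t⟩, hp⟩ := hψ
    refine ⟨i, fun h => hp ?_⟩
    have h1 : (∑ t' : {t // t ∈ T}, single (f t'.1) (ψ (i, t'))).coeff (f t.1) = ψ (i, t) := by
      rw [coeff_sum, Finsupp.finsetSum_apply, Finset.sum_eq_single t]
      · simp
      · intro t' _ hne
        rw [coeff_single, Finsupp.single_eq_of_ne]
        exact fun e => hne (Subtype.ext (hT _ t'.2 _ t.2 e.symm))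
      · simp
    rw [← h1]
    exact congrArg (fun z : MonoidAlgebra K Q => z.coeff (f t.1)) h
  · have hterm : ∀ i (t : {t // t ∈ T}), single (f t.1) (ψ (i, t)) * push f (c i) =
        ψ (i, t) • push f (single t.1 1 * c i) := by
      intro i t
      rw [map_mul, ← smul_mul_assoc]
      congr 1
      simp
    ext q
    simp only [Finset.sum_mul, hterm, coeff_sum, Finsupp.finsetSum_apply, coeff_smul,
      Finsupp.smul_apply, smul_eq_mul, coeff_zero, Finsupp.zero_apply]
    by_cases hq : ∃ r, f r = q
    · obtain ⟨r, rfl⟩ := hq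
      have := hrel _ (parts_relation hT hx c hc r)
      rw [Fintype.sum_prod_type] at this
      simpa [aug_ker] using this
    · exact Finset.sum_eq_zero fun i _ => Finset.sum_eq_zero fun t _ => by
        rw [push_coeff_not_range f _ q (fun g hg => hq ⟨g, hg⟩), mul_zero]

end Row

lemma transfers_push (f : G →* Q) (hN : Transfers (aug K f.ker)) :
    Transfers (push (K := K) f) := by
  intro ι _ u hu
  obtain ⟨T, hT, hx⟩ := exists_reps f u
  obtain ⟨ψ, hψ, hrel⟩ := hN _ (parts f u T) (parts_ne_zero hT hx hu)
  exact transfer_of_parts hT hx ψ hψ hrel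

/-- Liftability of the kernel lifts rows to the group algebra. -/
lemma lift_push (f : G →* Q) (hN : Liftable K f.ker) {ι : Type} [Fintype ι]
    (u : ι → MonoidAlgebra K G) (hu : ∃ i, u i ≠ 0) :
    ∃ v : ι → MonoidAlgebra K G, (∃ i, push f (v i) ≠ 0) ∧
      ∀ c : ι → MonoidAlgebra K G, ∑ i, u i * c i = 0 → ∑ i, v i * c i = 0 := by
  classical
  obtain ⟨T, hT, hx⟩ := exists_reps f u
  obtain ⟨a, ha, hrel⟩ := hN _ (parts f u T) (parts_ne_zero hT hx hu)
  refine ⟨fun i => ∑ t : {t // t ∈ T}, incl f.ker (a (i, t)) * single t.1 1, ?_, fun c hc => ?_⟩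
  · obtain ⟨⟨i, t⟩, hp⟩ := ha
    refine ⟨i, fun h => hp ?_⟩
    have hz : ∀ z : MonoidAlgebra K f.ker, push f (incl f.ker z) = single 1 (aug K f.ker z) := by
      intro z
      induction z using MonoidAlgebra.induction_linear with
      | zero => simp
      | add u v hu hv => simp only [map_add, hu, hv, single_add]
      | single g b => simp [incl_single, MonoidHom.mem_ker.1 g.2]
    have h1 := congrArg (fun z : MonoidAlgebra K Q => z.coeff (f t.1)) h
    simp only [map_sum, map_mul, hz, coeff_sum, Finsupp.finsetSum_apply] at h1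
    rw [Finset.sum_eq_single t] at h1
    · simpa [single_mul_single] using h1
    · intro t' _ hne
      simp only [push_single, single_mul_single, one_mul, mul_one, coeff_single]
      rw [Finsupp.single_eq_of_ne]
      exact fun e => hne (Subtype.ext (hT _ t'.2 _ t.2 e.symm))
    · simp
  · have h0 : ∀ r, cosetCoeff f.ker r
        (∑ i, (∑ t : {t // t ∈ T}, incl f.ker (a (i, t)) * single t.1 1) * c i) = 0 := by
      intro r
      have := hrel _ (parts_relation hT hx c hc r)
      rw [Fintype.sum_prod_type] at this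
      rw [← this, map_sum]
      refine Finset.sum_congr rfl fun i _ => ?_
      rw [Finset.sum_mul, map_sum]
      exact Finset.sum_congr rfl fun t _ => by rw [mul_assoc, cosetCoeff_incl_mul]
    ext g
    simpa using congrArg (fun z : MonoidAlgebra K f.ker => z.coeff 1) (h0 g)

/-- Inversion of group elements, extended linearly. -/
noncomputable def rev : MonoidAlgebra K G →ₗ[K] MonoidAlgebra K G :=
  (coeffLinearEquiv K).symm.toLinearMap ∘ₗ Finsupp.lmapDomain K K (·⁻¹ : G → G) ∘ₗ
    (coeffLinearEquiv K).toLinearMap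

@[simp] lemma rev_single (g : G) (a : K) : rev (single g a) = single g⁻¹ a := by
  simp [rev, coeffLinearEquiv]

lemma rev_rev (x : MonoidAlgebra K G) : rev (rev x) = x := by
  induction x using MonoidAlgebra.induction_linear with
  | zero => simp
  | add u v hu hv => simp only [map_add, hu, hv]
  | single g a => simp

lemma rev_mul (x y : MonoidAlgebra K G) : rev (x * y) = rev y * rev x := by
  induction x using MonoidAlgebra.induction_linear with
  | zero => simp
  | add u v hu hv => simp only [add_mul, mul_add, map_add, hu, hv]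
  | single g a =>
      induction y using MonoidAlgebra.induction_linear with
      | zero => simp
      | add u v hu hv => simp only [add_mul, mul_add, map_add, hu, hv]
      | single h b => simp [single_mul_single, mul_comm a b]

lemma rev_push (f : G →* Q) (x : MonoidAlgebra K G) : rev (push f x) = push f (rev x) := by
  induction x using MonoidAlgebra.induction_linear with
  | zero => simp
  | add u v hu hv => simp only [map_add, hu, hv]
  | single g a => simp

/-- A square matrix stays left cancellable if its image is. -/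
theorem mul_left_cancel_of_push (f : G →* Q) (hN : Transfers (aug K f.ker)) {n : ℕ}
    (A : Matrix (Fin n) (Fin n) (MonoidAlgebra K G))
    (hA : ∀ B, A.map (push f) * B = 0 → B = 0)
    (B : Matrix (Fin n) (Fin n) (MonoidAlgebra K G)) (hB : A * B = 0) : B = 0 := by
  classical
  by_contra hne
  obtain ⟨r, k, hrk⟩ : ∃ r k, B r k ≠ 0 := by
    by_contra h
    exact hne (Matrix.ext fun r k => not_not.1 fun hh => h ⟨r, k, hh⟩)
  obtain ⟨v, ⟨j, hj⟩, hrel⟩ := transfers_push f hN (Fin n) (fun l => rev (B l k))
    ⟨r, fun h => hrk (by simpa [rev_rev] using congrArg rev h)⟩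
  have h1 : ∀ i, ∑ l, A.map (push f) i l * rev (v l) = 0 := by
    intro i
    have h2 : ∑ l, rev (B l k) * rev (A i l) = 0 := by
      have := congrArg rev (congrFun (congrFun hB i) k)
      simpa [Matrix.mul_apply, map_sum, rev_mul] using this
    have := congrArg rev (hrel _ h2)
    simpa [map_sum, rev_mul, rev_rev, ← rev_push, Matrix.map_apply] using this
  have h2 := hA (Matrix.of fun l _ => rev (v l)) (Matrix.ext fun i c => by
    simpa [Matrix.mul_apply] using h1 i)
  exact hj (by simpa [rev_rev] using congrArg rev (congrFun (congrFun h2 j) j))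

/-- An element is no left zero divisor if its image is none. -/
theorem mul_eq_zero_left_of_push (f : G →* Q) (hN : Transfers (aug K f.ker))
    (x y : MonoidAlgebra K G) (hx : ∀ z, push f x * z = 0 → z = 0) (hxy : x * y = 0) : y = 0 := by
  by_contra hy
  obtain ⟨v, ⟨_, hv⟩, hrel⟩ := transfers_push f hN Unit (fun _ => rev y)
    ⟨(), fun h => hy (by simpa [rev_rev] using congrArg rev h)⟩
  have h := hrel (fun _ => rev x) (by simpa [← rev_mul] using congrArg rev hxy)
  have h1 := congrArg rev (by simpa [← rev_push] using h : v () * rev (push f x) = 0)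
  rw [rev_mul, rev_rev, map_zero] at h1
  exact hv (by simpa [rev_rev] using congrArg rev (hx _ h1))

/-- An element is no right zero divisor if its image is none. -/
theorem mul_eq_zero_right_of_push (f : G →* Q) (hN : Transfers (aug K f.ker))
    (x y : MonoidAlgebra K G) (hy : ∀ z, z * push f y = 0 → z = 0) (hxy : x * y = 0) : x = 0 := by
  by_contra hx
  obtain ⟨v, ⟨_, hv⟩, hrel⟩ := transfers_push f hN Unit (fun _ => x) ⟨(), hx⟩
  have h := hrel (fun _ => y) (by simpa using hxy)
  exact hv (hy _ (by simpa using h))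

/-- The domain property passes through a liftable kernel. -/
theorem noZeroDivisors_of_liftable (f : G →* Q) (hN : Liftable K f.ker)
    [NoZeroDivisors (MonoidAlgebra K Q)] : NoZeroDivisors (MonoidAlgebra K G) := by
  refine ⟨fun {x y} hxy => ?_⟩
  by_contra hne
  simp only [not_or] at hne
  obtain ⟨w, ⟨_, hw⟩, hrel⟩ := lift_push f hN (ι := Unit) (fun _ => x) ⟨(), hne.1⟩
  refine hne.2 (mul_eq_zero_left_of_push f hN.transfers (w ()) y
    (fun z hz => (mul_eq_zero.1 hz).resolve_left hw) ?_)
  simpa using hrel (fun _ => y) (by simpa using hxy)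

/-- Stable finiteness passes through a transferring kernel. -/
theorem stablyFinite_of_transfers (f : G →* Q) (hN : Transfers (aug K f.ker))
    (hQ : StablyFinite K Q) : StablyFinite K G := by
  intro n a b hab
  have hab' : a.map (push f) * b.map (push f) = 1 := by
    have := congrArg (push (K := K) f).toRingHom.mapMatrix hab
    rw [map_mul, map_one] at this
    exact this
  have hba := hQ n _ _ hab'
  refine sub_eq_zero.1 (mul_left_cancel_of_push f hN a (fun B hB => ?_) _ ?_)
  · have := congrArg (fun z => b.map (push f) * z) hB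
    rwa [← Matrix.mul_assoc, hba, Matrix.one_mul, Matrix.mul_zero] at this
  · rw [mul_sub, ← Matrix.mul_assoc, hab, Matrix.one_mul, Matrix.mul_one, sub_self]

end Vale.Agent.GroupRingKernels
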