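import Mathlib

/-!
# Classes of kernels used in the statements about group algebras of extensions
-/

namespace Vale.Agent.GroupRingKernels

/-- Every nontrivial finitely generated subgroup of N maps onto the integers. -/
def LocallyIndicable {G : Type} [Group G] (N : Subgroup G) : Prop :=
  ∀ S : Subgroup G, S ≤ N → S.FG → S ≠ ⊥ → ∃ f : S →* Multiplicative ℤ, f ≠ 1

/-- Every nontrivial finitely generated subgroup of N maps onto the cyclic group of order p. -/
def LocallyPIndicable (p : ℕ) {G : Type} [Group G] (N : Subgroup G) : Prop :=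
  ∀ S : Subgroup G, S ≤ N → S.FG → S ≠ ⊥ → ∃ f : S →* Multiplicative (ZMod p), f ≠ 1

/-- Every finitely generated subgroup of N is free. -/
def LocallyFree {G : Type} [Group G] (N : Subgroup G) : Prop :=
  ∀ S : Subgroup G, S ≤ N → S.FG → IsFreeGroup S

end Vale.Agent.GroupRingKernels

namespace Vale.Agent.GroupRingKernels

/-- N is free abelian with a levelled basis on which conjugation is unitriangular mod p. -/
def UnipotentModP (p : ℕ) {G : Type} [Group G] (N : Subgroup G) [N.Normal] : Prop :=
  ∃ (σ : Type) (e : N ≃* Multiplicative (σ →₀ ℤ)) (m : ℕ) (l : σ → ℕ), (∀ j, l j < m) ∧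
    ∀ (g : G) (j i : σ), l i ≤ l j →
      (p : ℤ) ∣ ((e ((MulAut.conjNormal g : MulAut N)
        (e.symm (Multiplicative.ofAdd (Finsupp.single j 1))))).toAdd i - Finsupp.single j 1 i)

end Vale.Agent.GroupRingKernels

namespace Vale.Agent.GroupRingKernels

/-- The three kinds of kernels: locally free, central torsion-free, unipotent mod the characteristic. -/
def AdmissibleKernel (K : Type) [Field K] {G : Type} [Group G] (N : Subgroup G) [N.Normal] : Prop :=
  LocallyFree N ∨ (N ≤ Subgroup.center G ∧ ∀ a ∈ N, IsOfFinOrder a → a = 1) ∨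
    ∃ p : ℕ, p.Prime ∧ CharP K p ∧ UnipotentModP p N

end Vale.Agent.GroupRingKernels
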