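import Vale.Agent.GroupRingKernels.Basic
import Vale.Agent.GroupRingKernels.Defs
import Vale.Agent.P201.Free.Magnus

/-!
# Augmentation transfer for indicable groups, lifting for locally free groups
-/

namespace Vale.Agent.GroupRingKernels

open MonoidAlgebra Vale.Agent.P194 Vale.Agent.P201.Free

variable {K : Type} [Field K]

lemma iter_fox {α : Type} [DecidableEq α] :
    ∀ (u : List α) (a : MonoidAlgebra K (FreeGroup α)), Low K u.length a →
      ∃ b, aug K _ b = coord K u a ∧
        ∀ c : MonoidAlgebra K (FreeGroup α), List.foldl (fun z i => fox K i z) (a * c) u = b * c ∧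
          List.foldl (fun z i => fox K i z) a u = b := by
  intro u
  induction u with
  | nil => intro a _; exact ⟨a, by simp [eps_eq_aug], fun c => by simp⟩
  | cons i u ih =>
      intro a ha
      have he : eps K _ a = 0 := ha [] (by simp)
      obtain ⟨b, hb, hrel⟩ := ih (fox K i a) fun w hw => ha (i :: w) (by simpa using hw)
      refine ⟨b, by rw [hb, coord_cons], fun c => ?_⟩
      simp only [List.foldl_cons, fox_mul, he, zero_smul, add_zero]
      exact hrel c

lemma foldl_fox_sum {α ι : Type} [DecidableEq α] (s : Finset ι) :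
    ∀ (u : List α) (z : ι → MonoidAlgebra K (FreeGroup α)),
      List.foldl (fun z i => fox K i z) (∑ j ∈ s, z j) u =
        ∑ j ∈ s, List.foldl (fun z i => fox K i z) (z j) u := by
  intro u
  induction u with
  | nil => simp
  | cons i u ih => intro z; simp only [List.foldl_cons, map_sum, ih]

/-- Free groups are liftable, by iterated Fox derivatives. -/
theorem liftable_freeGroup (α : Type) : Liftable K (FreeGroup α) := by
  classical
  intro ι _ u hu
  have hex : ∃ n, ∃ j, ∃ w : List α, w.length = n ∧ coord K w (u j) ≠ 0 := by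
    by_contra h
    obtain ⟨j, hj⟩ := hu
    exact hj (eq_zero_of_coord _ fun w => by_contra fun hw => h ⟨_, j, w, rfl, hw⟩)
  obtain ⟨j, w, hw, hjw⟩ := Nat.find_spec hex
  have hlow : ∀ i, Low K w.length (u i) := fun i v hv => by
    by_contra h
    exact Nat.find_min hex (hw ▸ hv) ⟨i, v, rfl, h⟩
  choose b hb hrel using fun i => iter_fox w (u i) (hlow i)
  refine ⟨b, ⟨j, by rwa [hb]⟩, fun c hc => ?_⟩
  have h := congrArg (fun z => List.foldl (fun z i => fox K i z) z w) hc
  rw [foldl_fox_sum] at h
  simp only [(hrel _ _).1] at h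
  rw [h]
  clear h hb hrel hlow hjw hw
  induction w with
  | nil => rfl
  | cons i w ih => simp only [List.foldl_cons, map_zero, ih]

variable {G H : Type} [Group G] [Group H]

lemma fg_map {S : Subgroup G} (hS : S.FG) (φ : G →* H) : (S.map φ).FG := by
  classical
  obtain ⟨D, rfl⟩ := hS
  exact ⟨D.image φ, by rw [Finset.coe_image, MonoidHom.map_closure]⟩

/-- Liftability passes along isomorphisms. -/
theorem Liftable.of_mulEquiv (e : G ≃* H) (h : Liftable K H) : Liftable K G := by
  intro ι _ u hu
  let E := mapDomainAlgHom K K e.toMonoidHom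
  let E' := mapDomainAlgHom K K e.symm.toMonoidHom
  have hinv : ∀ z, E' (E z) = z := by
    intro z
    induction z using MonoidAlgebra.induction_linear with
    | zero => simp
    | add a b ha hb => simp only [map_add, ha, hb]
    | single g a => simp [E, E', mapDomain_single]
  obtain ⟨v, ⟨i, hv⟩, hrel⟩ := h ι (fun i => E (u i)) (by
    obtain ⟨i, hi⟩ := hu
    exact ⟨i, fun he => hi (by rw [← hinv (u i), he, map_zero])⟩)
  refine ⟨fun i => E' (v i), ⟨i, by rwa [aug_map]⟩, fun c hc => ?_⟩
  have := congrArg E' (hrel (fun i => E (c i)) (by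
    simpa [map_sum] using congrArg E hc))
  simpa [map_sum, hinv] using this

lemma incl_cosetCoeff_one (S : Subgroup G) (x : MonoidAlgebra K G)
    (hx : ∀ s ∈ x.coeff.support, s ∈ S) : incl S (cosetCoeff S 1 x) = x := by
  have h := sum_cosets S {1} x (fun q hq q' hq' _ => by
    rw [Finset.mem_singleton.1 hq, Finset.mem_singleton.1 hq'])
    (fun s hs => ⟨1, Finset.mem_singleton_self _, by simpa using hx s hs⟩)
  simpa [← one_def] using h

/-- Groups all of whose finitely generated subgroups are liftable are liftable. -/
theorem liftable_of_local (h : ∀ S : Subgroup G, S.FG → Liftable K S) : Liftable K G := by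
  classical
  intro ι _ u hu
  let D : Finset G := Finset.univ.biUnion fun i => (u i).coeff.support
  let S : Subgroup G := Subgroup.closure (D : Set G)
  have hmem : ∀ i, ∀ s ∈ (u i).coeff.support, s ∈ S := fun i s hs =>
    Subgroup.subset_closure (Finset.mem_biUnion.2 ⟨i, Finset.mem_univ _, hs⟩)
  have hincl : ∀ i, incl S (cosetCoeff S 1 (u i)) = u i := fun i =>
    incl_cosetCoeff_one S _ (hmem i)
  obtain ⟨v, ⟨i, hv⟩, hrel⟩ := h S ⟨D, rfl⟩ ι (fun i => cosetCoeff S 1 (u i)) (by
    obtain ⟨i, hi⟩ := hu
    exact ⟨i, fun he => hi (by rw [← hincl i, he, map_zero])⟩)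
  refine ⟨fun i => incl S (v i), ⟨i, ?_⟩, fun c hc => ?_⟩
  · rwa [incl, aug_map]
  · have key : ∀ r, cosetCoeff S r (∑ i, incl S (v i) * c i) = 0 := by
      intro r
      simp only [map_sum, cosetCoeff_incl_mul]
      refine hrel _ ?_
      have := congrArg (cosetCoeff S r) hc
      rw [map_sum, map_zero] at this
      rw [← this]
      refine Finset.sum_congr rfl fun i _ => ?_
      conv_rhs => rw [← hincl i, cosetCoeff_incl_mul]
    ext g
    simpa using congrArg (fun z : MonoidAlgebra K S => z.coeff 1) (key g)

/-- Locally free subgroups are liftable. -/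
theorem liftable_of_locallyFree {N : Subgroup G} (hN : LocallyFree N) : Liftable K N := by
  refine liftable_of_local fun S hS => ?_
  have := hN (S.map N.subtype) (Subgroup.map_subtype_le S) (fg_map hS _)
  exact ((liftable_freeGroup _).of_mulEquiv
    (IsFreeGroup.toFreeGroup (S.map N.subtype))).of_mulEquiv
      (S.equivMapOfInjective N.subtype N.subtype_injective)

/-- The retraction along right cosets. -/
noncomputable def shrink (S : Subgroup G) : MonoidAlgebra K G →ₗ[K] MonoidAlgebra K S :=
  (coeffLinearEquiv K).symm.toLinearMap ∘ₗ Finsupp.lmapDomain K K (fun h : G =>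
    (⟨h * ((Quotient.mk (QuotientGroup.rightRel S) h).out)⁻¹,
      QuotientGroup.rightRel_apply.1 (Quotient.mk_out (s := QuotientGroup.rightRel S) h)⟩ : S))
    ∘ₗ (coeffLinearEquiv K).toLinearMap

lemma aug_shrink (S : Subgroup G) (x : MonoidAlgebra K G) :
    aug K S (shrink S x) = aug K G x := by
  induction x using MonoidAlgebra.induction_linear with
  | zero => simp
  | add u v hu hv => simp only [map_add, hu, hv]
  | single g a => simp [shrink, coeffLinearEquiv]

lemma shrink_single (S : Subgroup G) (g : G) (a : K) :
    shrink S (single g a) = single (⟨g * ((Quotient.mk (QuotientGroup.rightRel S) g).out)⁻¹,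
      QuotientGroup.rightRel_apply.1 (Quotient.mk_out (s := QuotientGroup.rightRel S) g)⟩ : S) a := by
  simp [shrink, coeffLinearEquiv]

lemma shrink_incl_mul (S : Subgroup G) (a : MonoidAlgebra K S) (x : MonoidAlgebra K G) :
    shrink S (incl S a * x) = a * shrink S x := by
  induction a using MonoidAlgebra.induction_linear with
  | zero => simp
  | add u v hu hv => simp only [map_add, add_mul, hu, hv]
  | single s a =>
      induction x using MonoidAlgebra.induction_linear with
      | zero => simp
      | add u v hu hv => simp only [map_add, mul_add, hu, hv]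
      | single g b =>
          have hq : (Quotient.mk (QuotientGroup.rightRel S) ((s : G) * g)) =
              Quotient.mk (QuotientGroup.rightRel S) g :=
            Quotient.sound (QuotientGroup.rightRel_apply.2 (by simp))
          rw [incl_single, single_mul_single, shrink_single, shrink_single, single_mul_single]
          congr 2
          simp [hq, mul_assoc]

/-- Every nontrivial finitely generated subgroup has a nontrivial map to A. -/
def Indicable (A : Type) [Group A] (H : Type) [Group H] : Prop :=
  ∀ S : Subgroup H, S.FG → S ≠ ⊥ → ∃ f : S →* A, f ≠ 1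

lemma Indicable.of_injective {A : Type} [Group A] (φ : H →* G) (hφ : Function.Injective φ)
    (h : Indicable A G) : Indicable A H := by
  intro S hS hne
  obtain ⟨f, hf⟩ := h (S.map φ) (fg_map hS φ) (by
    rwa [Ne, Subgroup.map_eq_bot_iff_of_injective _ hφ])
  refine ⟨f.comp (S.equivMapOfInjective φ hφ).toMonoidHom, fun he => hf ?_⟩
  ext x
  simpa using DFunLike.congr_fun he ((S.equivMapOfInjective φ hφ).symm x)

/-- Higman's induction: augmentation transfer spreads to indicable groups. -/
theorem transfers_of_indicable {A : Type} [Group A] (hA : Transfers (aug K A))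
    (hG : Indicable A G) : Transfers (aug K G) := by
  classical
  intro ι hι u hu
  suffices ∀ n, ∀ (H : Type) [Group H], Indicable A H → ∀ (ι : Type) [Fintype ι]
      (u : ι → MonoidAlgebra K H), ∑ i, ((u i).coeff.support.card - 1) = n → (∃ i, u i ≠ 0) →
      ∃ v : ι → K, (∃ i, v i ≠ 0) ∧ ∀ c : ι → MonoidAlgebra K H,
        ∑ i, u i * c i = 0 → ∑ i, v i * aug K H (c i) = 0 from
    this _ G hG ι u rfl hu
  intro n
  induction n using Nat.strong_induction_on with
  | _ n ih =>
  intro H _ hH ι _ u hn hu
  let g : ι → H := fun i => if h : (u i).coeff.support.Nonempty then h.choose else 1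
  let w : ι → MonoidAlgebra K H := fun i => u i * single (g i)⁻¹ 1
  have hw : ∀ i t, (w i).coeff t = (u i).coeff (t * g i) := fun i t => by
    simp [w]
  have hcard : ∀ i, (w i).coeff.support.card = (u i).coeff.support.card := by
    intro i
    refine Finset.card_bij (fun t _ => t * g i) (fun t ht => ?_) (fun a _ b _ h => by simpa using h)
      (fun s hs => ⟨s * (g i)⁻¹, ?_, by simp⟩)
    · rw [Finsupp.mem_support_iff] at ht ⊢; rwa [← hw]
    · rw [Finsupp.mem_support_iff] at hs ⊢; rw [hw]; simpa using hs
  have hone : ∀ i, w i ≠ 0 → (w i).coeff 1 ≠ 0 := by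
    intro i hi
    have hne : (u i).coeff.support.Nonempty := by
      rw [Finsupp.support_nonempty_iff, Ne, coeff_eq_zero]
      intro h; exact hi (by simp [w, h])
    rw [hw, one_mul, ← Finsupp.mem_support_iff]
    simp only [g, dif_pos hne]
    exact hne.choose_spec
  have hwne : ∃ i, w i ≠ 0 := by
    obtain ⟨i, hi⟩ := hu
    exact ⟨i, fun h => hi (by
      simpa [w, mul_assoc, single_mul_single, ← one_def] using
        congrArg (fun z => z * single (g i) (1 : K)) h)⟩
  suffices ∃ v : ι → K, (∃ i, v i ≠ 0) ∧ ∀ c : ι → MonoidAlgebra K H,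
      ∑ i, w i * c i = 0 → ∑ i, v i * aug K H (c i) = 0 by
    obtain ⟨v, hv, hrel⟩ := this
    refine ⟨v, hv, fun c hc => ?_⟩
    have := hrel (fun i => single (g i) 1 * c i) (by
      rw [← hc]
      exact Finset.sum_congr rfl fun i _ => by
        simp [w, ← mul_assoc, mul_assoc (u i), single_mul_single, ← one_def])
    simpa using this
  let D : Finset H := Finset.univ.biUnion fun i => (w i).coeff.support
  let S : Subgroup H := Subgroup.closure (D : Set H)
  have hmem : ∀ i, ∀ s ∈ (w i).coeff.support, s ∈ S := fun i s hs =>
    Subgroup.subset_closure (Finset.mem_biUnion.2 ⟨i, Finset.mem_univ _, hs⟩)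
  by_cases hS : S = ⊥
  · obtain ⟨i, hi⟩ := hwne
    refine ⟨fun i => aug K H (w i), ⟨i, ?_⟩, fun c hc => by
      simpa [map_sum] using congrArg (aug K H) hc⟩
    have hs : w i = single 1 ((w i).coeff 1) := by
      ext t
      rw [coeff_single]
      by_cases ht : t = 1
      · simp [ht]
      · rw [Finsupp.single_eq_of_ne ht]
        refine Finsupp.notMem_support_iff.1 fun hm => ht ?_
        simpa [hS] using hmem i t hm
    show aug K H (w i) ≠ 0
    rw [hs, aug_single]
    exact hone i hi
  obtain ⟨f, hf⟩ := hH S ⟨D, rfl⟩ hS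
  let a : ι → MonoidAlgebra K S := fun i => cosetCoeff S 1 (w i)
  have hincl : ∀ i, incl S (a i) = w i := fun i => incl_cosetCoeff_one S _ (hmem i)
  have hane : ∃ i, a i ≠ 0 := by
    obtain ⟨i, hi⟩ := hwne
    exact ⟨i, fun h => hi (by rw [← hincl i, h, map_zero])⟩
  obtain ⟨T, hT, hx⟩ := exists_reps f a
  -- the measure drops
  have hsupp : ∀ i (t : S), (cosetCoeff f.ker t (a i)).coeff.support.card =
      ((a i).coeff.support.filter fun s => f s = f t).card := by
    intro i t
    refine Finset.card_bij (fun h _ => (h : S) * t) (fun h hh => ?_)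
      (fun x _ y _ h => Subtype.ext (mul_right_cancel h))
      (fun s hs => ⟨⟨s * t⁻¹, ?_⟩, ?_, by simp⟩)
    · rw [Finsupp.mem_support_iff, cosetCoeff_apply] at hh
      exact Finset.mem_filter.2 ⟨Finsupp.mem_support_iff.2 hh, by
        rw [map_mul, MonoidHom.mem_ker.1 h.2, one_mul]⟩
    · simp [MonoidHom.mem_ker, (Finset.mem_filter.1 hs).2]
    · rw [Finsupp.mem_support_iff, cosetCoeff_apply]
      simpa using (Finset.mem_filter.1 hs).1
  have hwa : ∀ i, (a i).coeff.support.card = (w i).coeff.support.card := by
    intro i
    refine Finset.card_bij (fun s _ => (s : H)) (fun s hs => ?_) (fun x _ y _ h => Subtype.ext h)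
      (fun s hs => ⟨⟨s, hmem i s hs⟩, ?_, rfl⟩)
    · simpa [a] using hs
    · simpa [a] using hs
  have hle : ∀ i, ∑ t ∈ T, (((a i).coeff.support.filter fun s => f s = f t).card - 1) +
      (T.filter fun t => ((a i).coeff.support.filter fun s => f s = f t).Nonempty).card =
      (a i).coeff.support.card := by
    intro i
    rw [Finset.card_filter, ← Finset.sum_add_distrib,
      Finset.sum_congr rfl (g := fun t => ((a i).coeff.support.filter fun s => f s = f t).card)
        fun t _ => by
          split_ifs with h
          · have := Finset.Nonempty.card_pos h; omega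
          · simp [Finset.not_nonempty_iff_eq_empty.1 h],
      ← Finset.card_biUnion fun t ht t' ht' hne =>
        Finset.disjoint_filter.2 fun s _ h h' => hne (hT t ht t' ht' (h.symm.trans h'))]
    congr 1
    ext s
    simp only [Finset.mem_biUnion, Finset.mem_filter]
    exact ⟨fun ⟨_, _, h, _⟩ => h, fun h => by
      obtain ⟨t, ht, hst⟩ := hx i s h
      exact ⟨t, ht, h, hst⟩⟩
  have hlt : ∑ p : ι × {t // t ∈ T}, ((parts f a T p).coeff.support.card - 1) < n := by
    rw [← hn, Fintype.sum_prod_type]
    refine Finset.sum_lt_sum (fun i _ => ?_) ?_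
    · simp only [parts]
      rw [← hcard i, ← hwa i, Finset.sum_coe_sort T fun t =>
        ((cosetCoeff f.ker t (a i)).coeff.support.card - 1)]
      simp only [hsupp]
      have := hle i
      by_cases h0 : (a i).coeff.support.Nonempty
      · obtain ⟨s, hs⟩ := h0
        obtain ⟨t, ht, hst⟩ := hx i s hs
        have : 0 < (T.filter fun t => ((a i).coeff.support.filter fun s => f s = f t).Nonempty).card :=
          Finset.card_pos.2 ⟨t, Finset.mem_filter.2 ⟨ht, s, Finset.mem_filter.2 ⟨hs, hst⟩⟩⟩
        omega
      · rw [Finset.not_nonempty_iff_eq_empty.1 h0] at this ⊢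
        simp
    · obtain ⟨i, s, hs, hfs⟩ : ∃ i, ∃ s ∈ (a i).coeff.support, f s ≠ 1 := by
        by_contra hall
        simp only [not_exists, not_and, not_not] at hall
        apply hf
        refine MonoidHom.ext fun x => ?_
        obtain ⟨x, hx'⟩ := x
        induction hx' using Subgroup.closure_induction with
        | mem y hy =>
            obtain ⟨i, -, hi⟩ := Finset.mem_biUnion.1 hy
            exact hall i ⟨y, _⟩ (by simpa [a] using hi)
        | one => exact f.map_one
        | mul y z hy hz h1 h2 =>
            exact (f.map_mul ⟨y, hy⟩ ⟨z, hz⟩).trans (by simp_all)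
        | inv y hy h1 => exact (f.map_inv ⟨y, hy⟩).trans (by simp_all)
      have h1 : (1 : S) ∈ (a i).coeff.support := by
        rw [Finsupp.mem_support_iff, cosetCoeff_apply]
        simpa using hone i (fun h => by simp [a, h] at hs)
      obtain ⟨t, ht, hst⟩ := hx i s hs
      obtain ⟨t', ht', hst'⟩ := hx i 1 h1
      refine ⟨i, Finset.mem_univ _, ?_⟩
      simp only [parts]
      rw [← hcard i, ← hwa i, Finset.sum_coe_sort T fun t =>
        ((cosetCoeff f.ker t (a i)).coeff.support.card - 1)]
      simp only [hsupp]
      have := hle i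
      have : 1 < (T.filter fun t => ((a i).coeff.support.filter fun s => f s = f t).Nonempty).card :=
        Finset.one_lt_card.2 ⟨t, Finset.mem_filter.2 ⟨ht, s, Finset.mem_filter.2 ⟨hs, hst⟩⟩,
          t', Finset.mem_filter.2 ⟨ht', 1, Finset.mem_filter.2 ⟨h1, hst'⟩⟩,
          fun e => hfs (by rw [hst, e, ← hst', map_one])⟩
      omega
  obtain ⟨ψ, hψ, hrel⟩ := ih _ hlt f.ker
    ((hH.of_injective S.subtype S.subtype_injective).of_injective f.ker.subtype
      f.ker.subtype_injective) _ (parts f a T) rfl (parts_ne_zero hT hx hane)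
  obtain ⟨v, hv, hvrel⟩ := transfer_of_parts hT hx ψ hψ hrel
  obtain ⟨z, hz, hzrel⟩ := hA ι v hv
  refine ⟨z, hz, fun c hc => ?_⟩
  have h1 : ∑ i, a i * shrink S (c i) = 0 := by
    have := congrArg (shrink S) hc
    rw [map_sum, map_zero] at this
    rw [← this]
    exact Finset.sum_congr rfl fun i _ => by rw [← shrink_incl_mul, hincl]
  have h2 := hzrel _ (hvrel _ h1)
  have h3 : ∀ z : MonoidAlgebra K S, aug K A (push f z) = aug K S z := aug_map f
  simpa only [h3, aug_shrink] using h2

/-- The cyclic group of order p in characteristic p. -/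
theorem transfers_zmod (p : ℕ) [Fact p.Prime] [CharP K p] :
    Transfers (aug K (Multiplicative (ZMod p))) := by
  classical
  intro ι _ u hu
  let t : MonoidAlgebra K (Multiplicative (ZMod p)) :=
    single (Multiplicative.ofAdd 1) 1 - 1
  have : CharP (MonoidAlgebra K (Multiplicative (ZMod p))) p :=
    charP_of_injective_algebraMap (algebraMap K _).injective p
  have htp : t ^ p = 0 := by
    rw [sub_pow_char_of_commute (p := p) (h := Commute.one_right _), single_pow, one_pow, one_pow,
      ← ofAdd_nsmul, nsmul_one, ZMod.natCast_self, ofAdd_zero, one_def, sub_self]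
  have hex : ∃ k, ∀ i, u i * t ^ (k + 1) = 0 := ⟨p, fun i => by rw [pow_succ, htp]; simp⟩
  obtain ⟨j, hj⟩ : ∃ j, u j * t ^ Nat.find hex ≠ 0 := by
    rcases Nat.eq_zero_or_pos (Nat.find hex) with h | h
    · simpa [h] using hu
    · have := Nat.find_min hex (Nat.sub_one_lt_of_lt h)
      simpa [Nat.sub_add_cancel h] using this
  let a := fun i => u i * t ^ Nat.find hex
  have ha : ∀ i, ∀ g : Multiplicative (ZMod p), a i * single g (1 : K) = a i := by
    intro i g
    have h1 : a i * single (Multiplicative.ofAdd 1) (1 : K) = a i := by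
      have := Nat.find_spec hex i
      rw [pow_succ, ← mul_assoc] at this
      exact sub_eq_zero.1 (by simpa [t, mul_sub] using this)
    obtain ⟨k, rfl⟩ : ∃ k : ℕ, Multiplicative.ofAdd (1 : ZMod p) ^ k = g :=
      ⟨g.toAdd.val, by rw [← ofAdd_nsmul, nsmul_one, ZMod.natCast_zmod_val, ofAdd_toAdd]⟩
    induction k with
    | zero => simp [← one_def]
    | succ k ih =>
        rw [pow_succ, show single (Multiplicative.ofAdd (1 : ZMod p) ^ k *
          Multiplicative.ofAdd 1) (1 : K) = single (Multiplicative.ofAdd (1 : ZMod p) ^ k) 1 *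
            single (Multiplicative.ofAdd 1) 1 by simp [single_mul_single],
          ← mul_assoc, ih, h1]
  have hc : ∀ i c, a i * c = aug K _ c • a i := by
    intro i c
    induction c using MonoidAlgebra.induction_linear with
    | zero => simp
    | add x y hx hy => simp only [mul_add, map_add, add_smul, hx, hy]
    | single g b =>
        rw [show single g b = b • single g (1 : K) by simp, mul_smul_comm, ha, map_smul]
        simp
  obtain ⟨h, hh⟩ : ∃ h, (a j).coeff h ≠ 0 := by
    by_contra hall
    simp only [not_exists, not_not] at hall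
    exact hj (MonoidAlgebra.ext (Finsupp.ext fun h => by simpa using hall h))
  refine ⟨fun i => (a i).coeff h, ⟨j, hh⟩, fun c hc0 => ?_⟩
  have : ∑ i, a i * c i = 0 := by
    have := congrArg (fun z => z * t ^ Nat.find hex) hc0
    simpa [a, Finset.sum_mul, mul_right_comm] using this
  simp only [hc] at this
  have := congrArg (fun z : MonoidAlgebra K (Multiplicative (ZMod p)) => z.coeff h) this
  simpa [coeff_sum, Finsupp.finsetSum_apply, mul_comm] using this

/-- The infinite cyclic group, as a free group. -/
theorem transfers_freeUnit : Transfers (aug K (FreeGroup Unit)) :=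
  (liftable_freeGroup Unit).transfers

/-- Kernels with the indicability property in characteristic p. -/
theorem transfers_of_locallyPIndicable (p : ℕ) [Fact p.Prime] [CharP K p] {N : Subgroup G}
    (hN : LocallyPIndicable p N) : Transfers (aug K N) := by
  refine transfers_of_indicable (transfers_zmod p) fun S hS hne => ?_
  obtain ⟨f, hf⟩ := hN (S.map N.subtype) (Subgroup.map_subtype_le S) (fg_map hS _)
    (by rwa [Ne, Subgroup.map_eq_bot_iff_of_injective _ N.subtype_injective])
  refine ⟨f.comp (S.equivMapOfInjective N.subtype N.subtype_injective).toMonoidHom, fun he => hf ?_⟩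
  ext x
  simpa using DFunLike.congr_fun he
    ((S.equivMapOfInjective N.subtype N.subtype_injective).symm x)

/-- Locally indicable kernels, over every field. -/
theorem transfers_of_locallyIndicable {N : Subgroup G} (hN : LocallyIndicable N) :
    Transfers (aug K N) := by
  refine transfers_of_indicable transfers_freeUnit fun S hS hne => ?_
  obtain ⟨f, hf⟩ := hN (S.map N.subtype) (Subgroup.map_subtype_le S) (fg_map hS _)
    (by rwa [Ne, Subgroup.map_eq_bot_iff_of_injective _ N.subtype_injective])
  let z := zpowersHom (FreeGroup Unit) (FreeGroup.of ())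
  have hz : Function.Injective z := by
    intro a b hab
    have h := congrArg (FreeGroup.lift fun _ => Multiplicative.ofAdd (1 : ℤ)) hab
    simpa [z, ← ofAdd_zsmul] using h
  refine ⟨z.comp (f.comp (S.equivMapOfInjective N.subtype N.subtype_injective).toMonoidHom),
    fun he => hf ?_⟩
  ext x
  have := hz.eq_iff.1 ((DFunLike.congr_fun he
    ((S.equivMapOfInjective N.subtype N.subtype_injective).symm x)).trans z.map_one.symm)
  simpa using congrArg Multiplicative.toAdd this

end Vale.Agent.GroupRingKernels
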