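import Vale.Agent.GroupRingKernels.Unipotent

/-!
# From characteristic p to characteristic zero
-/

namespace Vale.Agent.GroupRingKernels

open MonoidAlgebra

variable {K : Type} [Field K] {G : Type} [Group G]

/-- A nonzero element is a scalar multiple of an integral one with nonzero reduction. -/
lemma exists_integral_multiple (V : ValuationSubring K) (x : MonoidAlgebra K G) (hx : x ≠ 0) :
    ∃ (c : K) (X : MonoidAlgebra V G), mapRingHom G V.subtype X = c • x ∧
      mapRingHom G (IsLocalRing.residue V) X ≠ 0 := by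
  classical
  obtain ⟨a, ha, hmax⟩ := x.coeff.support.exists_max_image (fun t => V.valuation (x.coeff t))
    (by rwa [Finsupp.support_nonempty_iff, Ne, coeff_eq_zero])
  have ha0 : x.coeff a ≠ 0 := Finsupp.mem_support_iff.1 ha
  have hmem : ∀ t, (x.coeff a)⁻¹ * x.coeff t ∈ V := by
    intro t
    by_cases ht : t ∈ x.coeff.support
    · rw [← V.valuation_le_one_iff, map_mul, map_inv₀, inv_mul_le_iff₀
        (zero_lt_iff.2 ((Valuation.ne_zero_iff _).2 ha0)), mul_one]
      exact hmax t ht
    · rw [Finsupp.notMem_support_iff.1 ht, mul_zero]; exact V.zero_mem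
  let X : MonoidAlgebra V G := ofCoeff (Finsupp.onFinset x.coeff.support
    (fun t => ⟨_, hmem t⟩) fun t ht => Finsupp.mem_support_iff.2 fun h0 => ht (Subtype.ext (by
      simp [h0])))
  refine ⟨(x.coeff a)⁻¹, X, ?_, fun h => ?_⟩
  · ext t
    simp [X]
  · have h1 := congrArg (fun z : MonoidAlgebra (IsLocalRing.ResidueField V) G => z.coeff a) h
    simp only [mapRingHom_apply, coeff_map, Finsupp.mapRange_apply, coeff_zero,
      Finsupp.zero_apply] at h1
    have hone : (X.coeff a : V) = 1 := Subtype.ext (inv_mul_cancel₀ ha0)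
    rw [hone, map_one] at h1
    exact one_ne_zero h1

/-- Characteristic zero reduces to characteristic p. -/
theorem noZeroDivisors_of_charP [CharZero K] (p : ℕ) [hp : Fact p.Prime]
    (h : ∀ (k : Type) [Field k] [CharP k p], NoZeroDivisors (MonoidAlgebra k G)) :
    NoZeroDivisors (MonoidAlgebra K G) := by
  classical
  let A : Subring K := (Int.castRingHom K).range
  let π : A := ⟨(p : K), ⟨(p : ℤ), by simp⟩⟩
  have hI : Ideal.span {π} ≠ (⊤ : Ideal A) := by
    rw [Ne, Ideal.span_singleton_eq_top]
    intro hu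
    obtain ⟨⟨b, m, rfl⟩, hb⟩ := isUnit_iff_exists_inv.1 hu
    have h1 : (p : K) * (m : K) = 1 := by simpa [π] using congrArg Subtype.val hb
    have h2 : (p : ℤ) * m = 1 := by exact_mod_cast h1
    have h3 := Int.eq_one_of_mul_eq_one_right (Int.natCast_nonneg p) h2
    exact hp.out.one_lt.ne' (by exact_mod_cast h3)
  obtain ⟨V, -, hV⟩ := Ideal.image_subset_nonunits_valuationSubring (Ideal.span {π}) hI
  have hpk : ((p : ℕ) : IsLocalRing.ResidueField V) = 0 := by
    have hm : (p : K) ∈ V.nonunits :=
      hV ⟨π, Ideal.subset_span (Set.mem_singleton π), rfl⟩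
    rw [← map_natCast (IsLocalRing.residue V), IsLocalRing.residue_eq_zero_iff]
    rw [← SetLike.mem_coe, ← V.image_maximalIdeal] at hm
    obtain ⟨v, hv, hvp⟩ := hm
    rwa [show v = (p : V) from Subtype.ext (hvp.trans (by simp))] at hv
  have : CharP (IsLocalRing.ResidueField V) p :=
    (CharP.ringChar_of_prime_eq_zero hp.out hpk) ▸ ringChar.charP _
  have hk := h (IsLocalRing.ResidueField V)
  refine ⟨fun {x y} hxy => ?_⟩
  by_contra hne
  simp only [not_or] at hne
  obtain ⟨c, X, hX, hX0⟩ := exists_integral_multiple V x hne.1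
  obtain ⟨d, Y, hY, hY0⟩ := exists_integral_multiple V y hne.2
  have hXY : X * Y = 0 := by
    have hinj : Function.Injective (mapRingHom G V.subtype) := fun u v huv => by
      ext t
      simpa using congrArg (fun z : MonoidAlgebra K G => z.coeff t) huv
    apply hinj
    rw [map_mul, map_zero, hX, hY, smul_mul_smul_comm, hxy, smul_zero]
  rcases mul_eq_zero.1 (show mapRingHom G (IsLocalRing.residue V) X *
      mapRingHom G (IsLocalRing.residue V) Y = 0 by rw [← map_mul, hXY, map_zero]) with h0 | h0
  · exact hX0 h0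
  · exact hY0 h0

/-- Unipotent kernels mod p in characteristic zero. -/
theorem noZeroDivisors_of_unipotent_charZero [CharZero K] (p : ℕ) [Fact p.Prime]
    (N : Subgroup G) [N.Normal] (hN : UnipotentModP p N)
    (h : ∀ (k : Type) [Field k] [CharP k p], NoZeroDivisors (MonoidAlgebra k (G ⧸ N))) :
    NoZeroDivisors (MonoidAlgebra K G) := by
  refine noZeroDivisors_of_charP p fun k _ _ => ?_
  have := h k
  exact noZeroDivisors_of_unipotent p N hN

end Vale.Agent.GroupRingKernels
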