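import Vale.Agent.GroupRingKernels.Indicable

/-!
# Central kernels, and descending series
-/

namespace Vale.Agent.GroupRingKernels

open MonoidAlgebra Vale.Agent.P194

variable {K : Type} [Field K] {G : Type} [Group G]

lemma push_ne_zero {Q : Type} [Group Q] (f : G →* Q) (x : MonoidAlgebra K G) (a : G)
    (ha : a ∈ x.coeff.support) (hsep : ∀ t ∈ x.coeff.support, f t = f a → t = a) :
    push f x ≠ 0 := by
  classical
  intro hzero
  have h1 : (push f x).coeff (f a) = x.coeff a := by
    show Finsupp.mapDomain f x.coeff (f a) = _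
    rw [Finsupp.mapDomain, Finsupp.sum_apply, Finsupp.sum, Finset.sum_eq_single a]
    · simp
    · intro t ht hne
      rw [Finsupp.single_eq_of_ne]
      exact fun e => hne (hsep t ht e.symm)
    · intro h; simp [Finsupp.notMem_support_iff.1 h]
  exact Finsupp.mem_support_iff.1 ha (by rw [← h1, hzero]; rfl)

/-- A domain group algebra is detected by separating quotients. -/
theorem noZeroDivisors_of_separated
    (h : ∀ D : Finset G, (∀ g ∈ D, g ≠ 1) → ∃ (Q : Type) (_ : Group Q) (f : G →* Q),
      (∀ g ∈ D, f g ≠ 1) ∧ NoZeroDivisors (MonoidAlgebra K Q)) :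
    NoZeroDivisors (MonoidAlgebra K G) := by
  classical
  refine ⟨fun {x y} hxy => ?_⟩
  by_contra hne
  simp only [not_or] at hne
  have hsupp : ∀ z : MonoidAlgebra K G, z ≠ 0 → z.coeff.support.Nonempty := fun z hz => by
    rwa [Finsupp.support_nonempty_iff, Ne, coeff_eq_zero]
  obtain ⟨a, ha⟩ := hsupp x hne.1
  obtain ⟨b, hb⟩ := hsupp y hne.2
  obtain ⟨Q, _, f, hf, hQ⟩ := h ((x.coeff.support.image (fun t => a⁻¹ * t) ∪
      y.coeff.support.image (fun t => b⁻¹ * t)).filter fun g => g ≠ 1)
    (fun g hg => (Finset.mem_filter.1 hg).2)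
  have hsep : ∀ (z : MonoidAlgebra K G) (c : G), (∀ t ∈ z.coeff.support, c⁻¹ * t ∈
      x.coeff.support.image (fun t => a⁻¹ * t) ∪ y.coeff.support.image (fun t => b⁻¹ * t)) →
      ∀ t ∈ z.coeff.support, f t = f c → t = c := by
    intro z c hz t ht he
    by_contra hne
    refine hf _ (Finset.mem_filter.2 ⟨hz t ht, ?_⟩) (by simp [he])
    rwa [Ne, inv_mul_eq_one, eq_comm]
  rcases mul_eq_zero.1 (show push f x * push f y = 0 by rw [← map_mul, hxy, map_zero]) with h0 | h0
  · exact push_ne_zero f x a ha (hsep x a fun t ht =>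
      Finset.mem_union_left _ (Finset.mem_image_of_mem _ ht)) h0
  · exact push_ne_zero f y b hb (hsep y b fun t ht =>
      Finset.mem_union_right _ (Finset.mem_image_of_mem _ ht)) h0

/-- A group that embeds in the rationals is liftable. -/
theorem liftable_of_rat {H : Type} [Group H] (φ : H →* Multiplicative ℚ)
    (hφ : Function.Injective φ) : Liftable K H := by
  classical
  refine liftable_of_local fun S hS => ?_
  obtain ⟨D, hD⟩ := hS
  let d : ℤ := ∏ s ∈ D, ((φ s).toAdd.den : ℤ)
  have hd : d ≠ 0 := Finset.prod_ne_zero_iff.2 fun s _ => by simp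
  have hint : ∀ s : S, ∃ z : ℤ, (z : ℚ) = d * (φ s).toAdd := by
    intro s
    obtain ⟨s, hs⟩ := s
    subst hD
    induction hs using Subgroup.closure_induction with
    | mem y hy =>
        obtain ⟨e, he⟩ : ((φ y).toAdd.den : ℤ) ∣ d := Finset.dvd_prod_of_mem _ hy
        refine ⟨e * (φ y).toAdd.num, ?_⟩
        simp only [he, Int.cast_mul, Int.cast_natCast]
        rw [mul_assoc, mul_comm (e : ℚ) (φ y).toAdd, ← mul_assoc, Rat.den_mul_eq_num]
        ring
    | one => exact ⟨0, by simp⟩
    | mul y z _ _ h1 h2 =>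
        obtain ⟨a, ha⟩ := h1
        obtain ⟨b, hb⟩ := h2
        exact ⟨a + b, by simp only [map_mul, toAdd_mul, Int.cast_add, ha, hb, mul_add]⟩
    | inv y _ h1 =>
        obtain ⟨a, ha⟩ := h1
        exact ⟨-a, by simp only [map_inv, toAdd_inv, Int.cast_neg, ha, mul_neg]⟩
  choose z hz using hint
  let g : S →* FreeGroup Unit :=
    { toFun := fun s => FreeGroup.of () ^ z s
      map_one' := by
        have : (z 1 : ℚ) = 0 := by rw [hz]; simp
        rw [Int.cast_eq_zero.1 this, zpow_zero]
      map_mul' := fun s t => by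
        have : (z (s * t) : ℚ) = ((z s + z t : ℤ) : ℚ) := by
          push_cast; simp [hz, mul_add]
        rw [Int.cast_inj.1 this, zpow_add] }
  have hg : Function.Injective g := by
    intro s t h
    have h1 := congrArg (FreeGroup.lift fun _ => Multiplicative.ofAdd (1 : ℤ)) h
    have h2 : z s = z t := by simpa [g, ← ofAdd_zsmul] using h1
    have h3 := congrArg (fun n : ℤ => (n : ℚ)) h2
    simp only [hz, mul_eq_mul_left_iff, Int.cast_eq_zero, hd, or_false] at h3
    exact Subtype.ext (hφ (Multiplicative.toAdd.injective h3))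
  exact ((liftable_freeGroup _).of_mulEquiv (IsFreeGroup.toFreeGroup g.range)).of_mulEquiv
    (MonoidHom.ofInjective hg)

/-- A torsion-free additive group has rational characters avoiding finitely many elements. -/
lemma exists_rat_addHom {V : Type} [AddCommGroup V] [Module.IsTorsionFree ℤ V] (D : Finset V)
    (hD : ∀ v ∈ D, v ≠ 0) : ∃ L : V →+ ℚ, ∀ v ∈ D, L v ≠ 0 := by
  classical
  let W : Submodule ℤ V := Submodule.span ℤ (D : Set V)
  have : Module.Finite ℤ W := Module.Finite.span_of_finite ℤ D.finite_toSet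
  have : Module.Free ℤ W := Module.free_of_finite_type_torsion_free'
  let b := Module.Free.chooseBasis ℤ W
  let e := Fintype.equivFin (Module.Free.ChooseBasisIndex ℤ W)
  let P : W → Polynomial ℤ := fun x =>
    ∑ i, Polynomial.C (b.coord i x) * Polynomial.X ^ (e i : ℕ)
  have hP : ∀ x, x ≠ 0 → P x ≠ 0 := by
    intro x hx h
    refine hx (b.forall_coord_eq_zero_iff.1 fun i => ?_)
    have := congrArg (fun p => Polynomial.coeff p (e i : ℕ)) h
    simpa [P, Polynomial.coeff_X_pow, Fin.val_inj] using this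
  let D' : Finset W := D.attach.image fun v => ⟨v.1, Submodule.subset_span v.2⟩
  have hne : ∏ x ∈ D', P x ≠ 0 := Finset.prod_ne_zero_iff.2 fun x hx => hP x (by
    obtain ⟨v, -, rfl⟩ := Finset.mem_image.1 hx
    exact fun h => hD v.1 v.2 (congrArg Subtype.val h))
  obtain ⟨r, hr⟩ : ∃ r : ℤ, (∏ x ∈ D', P x).eval r ≠ 0 := by
    by_contra h
    simp only [not_exists, not_not] at h
    exact hne (Polynomial.funext (by simpa using h))
  let l : W →+ ℚ :=
    (Int.castAddHom ℚ).comp (∑ i, r ^ (e i : ℕ) • (b.coord i).toAddMonoidHom)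
  obtain ⟨L, hL⟩ := (Module.Baer.of_divisible ℚ).extension_property_addMonoidHom
    W.subtype.toAddMonoidHom W.subtype_injective l
  refine ⟨L, fun v hv he => hr ?_⟩
  rw [Polynomial.eval_prod]
  refine Finset.prod_eq_zero (Finset.mem_image.2 ⟨⟨v, hv⟩, Finset.mem_attach _ _, rfl⟩) ?_
  have h1 : l ⟨v, Submodule.subset_span hv⟩ = 0 := by rw [← hL]; exact he
  have h2 : ∑ i, r ^ (e i : ℕ) * b.coord i ⟨v, Submodule.subset_span hv⟩ = 0 := by
    have : ((∑ i, r ^ (e i : ℕ) * b.coord i ⟨v, Submodule.subset_span hv⟩ : ℤ) : ℚ) = 0 := by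
      rw [← h1]
      simp [l, AddMonoidHom.finsetSum_apply]
    exact_mod_cast this
  simpa [P, Polynomial.eval_finset_sum, mul_comm] using h2

/-- A torsion-free abelian group has rational characters avoiding finitely many elements. -/
lemma exists_rat_hom (N : Subgroup G) (hc : ∀ a ∈ N, ∀ b ∈ N, a * b = b * a)
    (ht : ∀ a ∈ N, IsOfFinOrder a → a = 1) (D : Finset N) (hD : ∀ g ∈ D, g ≠ 1) :
    ∃ φ : N →* Multiplicative ℚ, ∀ g ∈ D, φ g ≠ 1 := by
  classical
  let _ : CommGroup N :=
    { (inferInstance : Group N) with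
      mul_comm := fun a b => Subtype.ext (hc a a.2 b b.2) }
  have hz : ∀ (n : ℕ) (x : N), 0 < n → x ^ n = 1 → x = 1 := fun n x hn hx =>
    Subtype.ext (ht x.1 x.2 (isOfFinOrder_iff_pow_eq_one.2
      ⟨n, hn, by simpa using congrArg (fun t : N => (t : G)) hx⟩))
  have : Module.IsTorsionFree ℤ (Additive N) := by
    rw [Module.isTorsionFree_iff_smul_eq_zero]
    intro c x hcx
    by_contra hne
    simp only [not_or] at hne
    apply hne.2
    rw [← ofMul_toMul x]
    refine congrArg Additive.ofMul (?_ : x.toMul = 1)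
    have h1 : (c.natAbs : ℕ) • x = 0 := by
      rcases Int.natAbs_eq c with e | e
      · rw [e, natCast_zsmul] at hcx; exact hcx
      · rw [e, neg_smul, natCast_zsmul, neg_eq_zero] at hcx; exact hcx
    exact hz _ x.toMul (Int.natAbs_pos.2 hne.1) (congrArg Additive.toMul h1)
  obtain ⟨L, hL⟩ := exists_rat_addHom (D.image Additive.ofMul) fun v hv => by
    obtain ⟨g, hg, rfl⟩ := Finset.mem_image.1 hv
    exact fun h => hD g hg (congrArg Additive.toMul h)
  exact ⟨AddMonoidHom.toMultiplicativeRight L, fun g hg he =>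
    hL _ (Finset.mem_image_of_mem _ hg) (congrArg Multiplicative.toAdd he)⟩

/-- The domain property passes through torsion-free central kernels. -/
theorem noZeroDivisors_of_central (N : Subgroup G) [N.Normal] (hN : N ≤ Subgroup.center G)
    (ht : ∀ a ∈ N, IsOfFinOrder a → a = 1) [NoZeroDivisors (MonoidAlgebra K (G ⧸ N))] :
    NoZeroDivisors (MonoidAlgebra K G) := by
  classical
  refine noZeroDivisors_of_separated fun D hD => ?_
  obtain ⟨φ, hφ⟩ := exists_rat_hom N (fun a _ b hb => Subgroup.mem_center_iff.1 (hN hb) a) ht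
    (D.subtype fun g => g ∈ N) (fun g hg h => hD g (Finset.mem_subtype.1 hg) (by simp [h]))
  let C : Subgroup G := φ.ker.map N.subtype
  have hCN : C ≤ N := Subgroup.map_subtype_le _
  have : C.Normal := ⟨fun a ha g => by
    rwa [Subgroup.mem_center_iff.1 (hN (hCN ha)) g, mul_inv_cancel_right]⟩
  let f : G ⧸ C →* G ⧸ N :=
    QuotientGroup.lift C (QuotientGroup.mk' N) (by rw [QuotientGroup.ker_mk']; exact hCN)
  let ψ : N →* f.ker := ((QuotientGroup.mk' C).comp N.subtype).codRestrict f.ker fun n => by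
    simp [f, MonoidHom.mem_ker]
  have hψ : Function.Surjective ψ := by
    rintro ⟨q, hq⟩
    obtain ⟨g, rfl⟩ := QuotientGroup.mk'_surjective C q
    exact ⟨⟨g, (QuotientGroup.eq_one_iff g).1 hq⟩, rfl⟩
  have hker : ψ.ker = φ.ker := by
    ext n
    constructor
    · intro h
      obtain ⟨m, hm, he⟩ := (QuotientGroup.eq_one_iff (n : G)).1 (congrArg Subtype.val h)
      rwa [N.subtype_injective he] at hm
    · exact fun h => Subtype.ext ((QuotientGroup.eq_one_iff (n : G)).2 ⟨n, h, rfl⟩)
  let χ : f.ker →* Multiplicative ℚ := ψ.liftOfSurjective hψ ⟨φ, hker.le⟩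
  have hχ : ∀ n, χ (ψ n) = φ n := fun n => MonoidHom.liftOfRightInverse_comp_apply _ _ _ _ n
  have hinj : Function.Injective χ := by
    rw [injective_iff_map_eq_one]
    intro q hq
    obtain ⟨n, rfl⟩ := hψ q
    rw [hχ] at hq
    exact hker.ge (MonoidHom.mem_ker.2 hq)
  refine ⟨G ⧸ C, inferInstance, QuotientGroup.mk' C, fun g hg h => ?_,
    noZeroDivisors_of_liftable f (liftable_of_rat χ hinj)⟩
  obtain ⟨n, hn, he⟩ := (QuotientGroup.eq_one_iff g).1 h
  subst he
  exact hφ n (Finset.mem_subtype.2 hg) (MonoidHom.mem_ker.1 hn)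

/-- The domain property passes through locally free kernels. -/
theorem noZeroDivisors_of_locallyFree (N : Subgroup G) [N.Normal] (hN : LocallyFree N)
    [NoZeroDivisors (MonoidAlgebra K (G ⧸ N))] : NoZeroDivisors (MonoidAlgebra K G) :=
  noZeroDivisors_of_liftable (QuotientGroup.mk' N)
    ((liftable_of_locallyFree hN).of_mulEquiv
      (MulEquiv.subgroupCongr (QuotientGroup.ker_mk' N)))

/-- Descending series in which every step preserves the domain property. -/
theorem noZeroDivisors_of_steps (N : ℕ → Subgroup G) [∀ i, (N i).Normal]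
    (hle : ∀ i, N (i + 1) ≤ N i) (hbot : ∀ g, (∀ i, g ∈ N i) → g = 1)
    (htop : NoZeroDivisors (MonoidAlgebra K (G ⧸ N 0)))
    (hF : ∀ i, ∀ [((N i).map (QuotientGroup.mk' (N (i + 1)))).Normal],
      NoZeroDivisors (MonoidAlgebra K
        ((G ⧸ N (i + 1)) ⧸ (N i).map (QuotientGroup.mk' (N (i + 1))))) →
      NoZeroDivisors (MonoidAlgebra K (G ⧸ N (i + 1)))) :
    NoZeroDivisors (MonoidAlgebra K G) := by
  classical
  have hstep : ∀ i, NoZeroDivisors (MonoidAlgebra K (G ⧸ N i)) := by
    intro i
    induction i with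
    | zero => exact htop
    | succ i ih =>
        have : ((N i).map (QuotientGroup.mk' (N (i + 1)))).Normal :=
          Subgroup.Normal.map inferInstance _ (QuotientGroup.mk'_surjective _)
        exact hF i (Function.Injective.noZeroDivisors _
            (MonoidAlgebra.mapDomainRingEquiv K
              (QuotientGroup.quotientQuotientEquivQuotient (N (i + 1)) (N i) (hle i))).injective
            (map_zero _) (map_mul _))
  have anti : Antitone N := antitone_nat_of_succ_le hle
  refine noZeroDivisors_of_separated fun D hD => ?_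
  have hsep : ∃ m, ∀ g ∈ D, g ∉ N m := by
    induction D using Finset.induction_on with
    | empty => exact ⟨0, by simp⟩
    | insert a D _ ih =>
        obtain ⟨m, hm⟩ := ih fun g hg => hD g (Finset.mem_insert_of_mem hg)
        obtain ⟨l, hl⟩ := not_forall.1 fun h => hD a (Finset.mem_insert_self _ _) (hbot a h)
        refine ⟨max m l, fun g hg hmem => ?_⟩
        rcases Finset.mem_insert.1 hg with rfl | hg
        · exact hl (anti (le_max_right _ _) hmem)
        · exact hm g hg (anti (le_max_left _ _) hmem)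
  obtain ⟨m, hm⟩ := hsep
  exact ⟨G ⧸ N m, inferInstance, QuotientGroup.mk' (N m),
    fun g hg h => hm g hg ((QuotientGroup.eq_one_iff g).1 h), hstep m⟩

/-- Descending series with locally free or central torsion-free factors. -/
theorem noZeroDivisors_of_series (N : ℕ → Subgroup G) [∀ i, (N i).Normal]
    (hle : ∀ i, N (i + 1) ≤ N i) (hbot : ∀ g, (∀ i, g ∈ N i) → g = 1)
    (htop : NoZeroDivisors (MonoidAlgebra K (G ⧸ N 0)))
    (hF : ∀ i, LocallyFree ((N i).map (QuotientGroup.mk' (N (i + 1)))) ∨
      ((N i).map (QuotientGroup.mk' (N (i + 1))) ≤ Subgroup.center (G ⧸ N (i + 1)) ∧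
        ∀ a ∈ (N i).map (QuotientGroup.mk' (N (i + 1))), IsOfFinOrder a → a = 1)) :
    NoZeroDivisors (MonoidAlgebra K G) :=
  noZeroDivisors_of_steps N hle hbot htop fun i _ h => (hF i).elim
    (fun h1 => noZeroDivisors_of_locallyFree _ h1)
    fun h1 => noZeroDivisors_of_central _ h1.1 h1.2

/-- Descending factors with the indicability property give it for the top. -/
theorem locallyPIndicable_of_series (p : ℕ) (N : ℕ → Subgroup G) [∀ i, (N i).Normal]
    (hbot : ∀ g, (∀ i, g ∈ N i) → g = 1)
    (hF : ∀ i, LocallyPIndicable p ((N i).map (QuotientGroup.mk' (N (i + 1))))) :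
    LocallyPIndicable p (N 0) := by
  classical
  intro S hS hFG hne
  have hex : ∃ i, ¬S ≤ N (i + 1) := by
    by_contra h
    simp only [not_exists, not_not] at h
    refine hne ((Subgroup.eq_bot_iff_forall _).2 fun g hg => hbot g fun i => ?_)
    cases i with
    | zero => exact hS hg
    | succ i => exact h i hg
  have hi : S ≤ N (Nat.find hex) := by
    rcases Nat.eq_zero_or_pos (Nat.find hex) with h | h
    · rw [h]; exact hS
    · have := Nat.find_min hex (Nat.sub_one_lt_of_lt h)
      rw [Nat.sub_add_cancel h] at this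
      exact not_not.1 this
  let q := QuotientGroup.mk' (N (Nat.find hex + 1))
  obtain ⟨f, hf⟩ := hF (Nat.find hex) (S.map q) (Subgroup.map_mono hi) (fg_map hFG q) (by
    rw [Ne, Subgroup.map_eq_bot_iff, QuotientGroup.ker_mk']
    exact Nat.find_spec hex)
  refine ⟨f.comp (q.subgroupMap S), fun he => hf ?_⟩
  ext x
  obtain ⟨y, rfl⟩ := q.subgroupMap_surjective S x
  simpa using DFunLike.congr_fun he y

/-- Locally residually p subgroups are locally p-indicable. -/
theorem locallyPIndicable_of_locallyResiduallyP (p : ℕ) [Fact p.Prime] (N : Subgroup G)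
    (hN : LocallyResiduallyP p N) : LocallyPIndicable p N := by
  classical
  intro S hS hFG hne
  obtain ⟨s, hs, hs1⟩ := S.ne_bot_iff_exists_ne_one.1 hne |> fun ⟨s, h⟩ => (⟨s.1, s.2, h⟩ :
    ∃ s, ∃ hs : s ∈ S, (⟨s, hs⟩ : S) ≠ 1)
  obtain ⟨P, _, _, f, hP, hf⟩ := hN S hS hFG ⟨s, hs⟩ hs1
  have hnt : Nontrivial f.range :=
    (Subgroup.nontrivial_iff_ne_bot _).2 fun h => hf (by
      have : f ⟨s, hs⟩ ∈ f.range := ⟨_, rfl⟩
      rwa [h, Subgroup.mem_bot] at this)
  obtain ⟨k, hk, hcard⟩ := (hP.to_subgroup f.range).nontrivial_iff_card.1 hnt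
  obtain ⟨M, hM⟩ := Sylow.exists_subgroup_card_pow_prime (G := f.range) p (n := k - 1)
    (hcard ▸ pow_dvd_pow p (Nat.sub_le k 1))
  have hidx : M.index = p := by
    have h1 := Subgroup.card_mul_index M
    rw [hM, hcard] at h1
    have h2 : p ^ k = p ^ (k - 1) * p := by rw [← pow_succ, Nat.sub_add_cancel hk]
    rw [h2] at h1
    exact Nat.eq_of_mul_eq_mul_left (pow_pos (Fact.out : p.Prime).pos _) h1
  have : M.Normal := Subgroup.normal_of_index_eq_minFac_card (by
    rw [hidx, hcard, Nat.pow_minFac hk.ne', (Fact.out : p.Prime).minFac_eq])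
  let e : f.range ⧸ M ≃* Multiplicative (ZMod p) :=
    mulEquivOfPrimeCardEq (p := p) (by rw [← Subgroup.index_eq_card, hidx]) (by simp)
  refine ⟨e.toMonoidHom.comp ((QuotientGroup.mk' M).comp f.rangeRestrict), fun he => ?_⟩
  have htop : M = ⊤ := by
    rw [Subgroup.eq_top_iff']
    intro x
    obtain ⟨y, rfl⟩ := f.rangeRestrict_surjective x
    have h := DFunLike.congr_fun he y
    simp only [MonoidHom.comp_apply, MonoidHom.one_apply, MulEquiv.coe_toMonoidHom,
      EmbeddingLike.map_eq_one_iff] at h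
    exact (QuotientGroup.eq_one_iff _).1 h
  rw [htop, Subgroup.index_top] at hidx
  exact (Fact.out : p.Prime).one_lt.ne hidx

end Vale.Agent.GroupRingKernels
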