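import Vale.Agent.GroupRingKernels.Series

/-!
# Free abelian kernels with unipotent action mod p, by leading terms in power series
-/

namespace Vale.Agent.GroupRingKernels

open MonoidAlgebra Vale.Agent.P194
open PowerSeries (X C)

variable {K : Type} [Field K] {G : Type} [Group G]

lemma coeff_of_dvd {R : Type} [CommRing R] {f g : PowerSeries R} {d e : ℕ}
    (h : X ^ d ∣ f - g) (he : e < d) : PowerSeries.coeff e f = PowerSeries.coeff e g :=
  sub_eq_zero.1 (by rw [← map_sub]; exact PowerSeries.X_pow_dvd_iff.1 h e he)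

lemma coeff_mul_of_dvd {R : Type} [CommRing R] {f g : PowerSeries R} {i j : ℕ}
    (hf : X ^ i ∣ f) (hg : X ^ j ∣ g) :
    PowerSeries.coeff (i + j) (f * g) = PowerSeries.coeff i f * PowerSeries.coeff j g := by
  obtain ⟨a, rfl⟩ := hf
  obtain ⟨b, rfl⟩ := hg
  rw [mul_mul_mul_comm, ← pow_add]
  simp [PowerSeries.coeff_X_pow_mul']

/-- Conjugation of a normal subgroup on its group algebra. -/
noncomputable def conjMap (N : Subgroup G) [N.Normal] (t : G) :
    MonoidAlgebra K N →ₐ[K] MonoidAlgebra K N :=
  mapDomainAlgHom K K (MulAut.conjNormal t : MulAut N).toMonoidHom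

lemma cosetCoeff_single_mul (N : Subgroup G) [N.Normal] (t u : G) (y : MonoidAlgebra K G) :
    cosetCoeff N u (single t (1 : K) * y) = conjMap N t (cosetCoeff N (t⁻¹ * u) y) := by
  ext h
  have hh : h = (MulAut.conjNormal t : MulAut N) ((MulAut.conjNormal t⁻¹ : MulAut N) h) :=
    Subtype.ext (by simp [mul_assoc])
  rw [cosetCoeff_apply, coeff_single_mul_apply, one_mul]
  show _ = Finsupp.mapDomain _ (cosetCoeff N (t⁻¹ * u) y).coeff h
  conv_rhs => rw [hh]
  erw [Finsupp.mapDomain_apply (MulEquiv.injective _)]
  simp [mul_assoc]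

lemma cosetCoeff_translate (N : Subgroup G) (r : G) (n : N) (x : MonoidAlgebra K G) :
    cosetCoeff N ((n : G) * r) x = cosetCoeff N r x * single n⁻¹ 1 := by
  ext h
  simp [mul_assoc]

open scoped Classical in
/-- The row of leading coefficients in degree d, over the quotient. -/
noncomputable def symbol (N : Subgroup G) [N.Normal] {R : Type} [CommRing R] [Algebra K R]
    (φ : MonoidAlgebra K N →ₐ[K] PowerSeries R) (z : MonoidAlgebra K G) (d : ℕ) :
    MonoidAlgebra R (G ⧸ N) :=
    ofCoeff (Finsupp.onFinset (z.coeff.support.image QuotientGroup.mk)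
      (fun q => PowerSeries.coeff d (φ (cosetCoeff N q.out z))) (fun q hq => by
        obtain ⟨h, hh⟩ : ∃ h : N, z.coeff ((h : G) * q.out) ≠ 0 := by
          by_contra hall
          simp only [not_exists, not_not] at hall
          apply hq
          rw [show cosetCoeff N q.out z = 0 by ext h; simp [hall h], map_zero, map_zero]
        refine Finset.mem_image.2 ⟨_, Finsupp.mem_support_iff.2 hh, ?_⟩
        conv_rhs => rw [← QuotientGroup.out_eq' q]
        exact (QuotientGroup.eq_iff_div_mem).2 (by simp)))

lemma symbol_apply (N : Subgroup G) [N.Normal] {R : Type} [CommRing R] [Algebra K R]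
    (φ : MonoidAlgebra K N →ₐ[K] PowerSeries R) (z : MonoidAlgebra K G) (d : ℕ) (q : G ⧸ N) :
    (symbol N φ z d).coeff q = PowerSeries.coeff d (φ (cosetCoeff N q.out z)) := rfl

/-- Leading-term embedding of the kernel with a trivial action on leading terms: domain. -/
theorem noZeroDivisors_of_symbol (N : Subgroup G) [N.Normal] {R : Type} [CommRing R]
    [Algebra K R] (φ : MonoidAlgebra K N →ₐ[K] PowerSeries R) (hinj : Function.Injective φ)
    (hgrp : ∀ n : N, X ∣ φ (single n 1) - 1)
    (hconj : ∀ (t : G) (a : MonoidAlgebra K N) (d : ℕ), X ^ d ∣ φ a →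
      X ^ (d + 1) ∣ φ (conjMap N t a) - φ a)
    (hdom : NoZeroDivisors (MonoidAlgebra R (G ⧸ N))) :
    NoZeroDivisors (MonoidAlgebra K G) := by
  classical
  refine ⟨fun {x y} hxy => ?_⟩
  by_contra hne
  simp only [not_or] at hne
  have hex : ∀ z : MonoidAlgebra K G, z ≠ 0 →
      ∃ d g, PowerSeries.coeff d (φ (cosetCoeff N g z)) ≠ 0 := by
    intro z hz
    by_contra h
    simp only [not_exists, not_not] at h
    refine hz (MonoidAlgebra.ext (Finsupp.ext fun g => ?_))
    have hz0 : φ (cosetCoeff N g z) = 0 := PowerSeries.ext fun d => by simp [h d g]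
    have h0 : cosetCoeff N g z = 0 := hinj (hz0.trans (map_zero φ).symm)
    simpa using congrArg (fun a : MonoidAlgebra K N => a.coeff 1) h0
  have hi := hex x hne.1
  have hj := hex y hne.2
  have hdvd : ∀ (z : MonoidAlgebra K G) (h : ∃ d g, PowerSeries.coeff d (φ (cosetCoeff N g z)) ≠ 0)
      (g : G), X ^ Nat.find h ∣ φ (cosetCoeff N g z) := fun z h g =>
    PowerSeries.X_pow_dvd_iff.2 fun e he => not_not.1 fun hc => Nat.find_min h he ⟨g, hc⟩
  have hshift : ∀ (z : MonoidAlgebra K G) (d : ℕ), (∀ g, X ^ d ∣ φ (cosetCoeff N g z)) →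
      ∀ g g' : G, (QuotientGroup.mk g : G ⧸ N) = QuotientGroup.mk g' →
      PowerSeries.coeff d (φ (cosetCoeff N g z)) = PowerSeries.coeff d (φ (cosetCoeff N g' z)) := by
    intro z d hd g g' hg
    have hn : g * g'⁻¹ ∈ N := by
      simpa [div_eq_mul_inv] using QuotientGroup.eq_iff_div_mem.1 hg
    have h := cosetCoeff_translate N g' ⟨_, hn⟩ z
    simp only [inv_mul_cancel_right] at h
    refine coeff_of_dvd (d := d + 1) ?_ (by omega)
    rw [h, map_mul, ← mul_sub_one, pow_succ]
    exact mul_dvd_mul (hd _) (hgrp _)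
  have hsym : ∀ (z : MonoidAlgebra K G) (h : ∃ d g, PowerSeries.coeff d (φ (cosetCoeff N g z)) ≠ 0),
      symbol N φ z (Nat.find h) ≠ 0 := by
    intro z h h0
    obtain ⟨g, hg⟩ := Nat.find_spec h
    apply hg
    rw [hshift z _ (hdvd z h) g (QuotientGroup.mk g : G ⧸ N).out (QuotientGroup.out_eq' _).symm]
    rw [← symbol_apply, h0, coeff_zero, Finsupp.zero_apply]
  have hprod : symbol N φ x (Nat.find hi) * symbol N φ y (Nat.find hj) = 0 := by
    ext s
    obtain ⟨u, rfl⟩ := QuotientGroup.mk_surjective s
    let T : Finset G := (x.coeff.support.image (QuotientGroup.mk : G → G ⧸ N)).image Quotient.out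
    have hT : ∀ q ∈ T, ∀ q' ∈ T, q * q'⁻¹ ∈ N → q = q' := by
      intro q hq q' hq' h
      obtain ⟨a, -, rfl⟩ := Finset.mem_image.1 hq
      obtain ⟨b, -, rfl⟩ := Finset.mem_image.1 hq'
      rw [show a = b by
        rw [← QuotientGroup.out_eq' a, ← QuotientGroup.out_eq' b]
        exact QuotientGroup.eq_iff_div_mem.2 (by simpa [div_eq_mul_inv] using h)]
    have hcov : ∀ a ∈ x.coeff.support, ∃ q ∈ T, a * q⁻¹ ∈ N := by
      intro a ha
      refine ⟨_, Finset.mem_image_of_mem _ (Finset.mem_image_of_mem _ ha), ?_⟩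
      have := QuotientGroup.eq_iff_div_mem.1
        (QuotientGroup.out_eq' (QuotientGroup.mk a : G ⧸ N)).symm
      simpa [div_eq_mul_inv] using this
    have h0 : φ (cosetCoeff N u (x * y)) = 0 := by rw [hxy, map_zero, map_zero]
    conv at h0 => lhs; rw [← sum_cosets N T x hT hcov, Finset.sum_mul, map_sum, map_sum]
    have h1 := congrArg (PowerSeries.coeff (Nat.find hi + Nat.find hj)) h0
    rw [map_sum, map_zero, Finset.sum_image fun a _ b _ h => by
      rw [← QuotientGroup.out_eq' a, ← QuotientGroup.out_eq' b, h]] at h1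
    rw [coeff_mul_apply_left, Finsupp.sum_of_support_subset _
      (s := x.coeff.support.image (QuotientGroup.mk : G → G ⧸ N))
      (by simp only [symbol, coeff_ofCoeff, Finsupp.support_onFinset]; exact Finset.filter_subset _ _)
      _ (fun a _ => zero_mul _)]
    refine Eq.trans ?_ h1
    refine Finset.sum_congr rfl fun q _ => ?_
    have hc := hconj q.out (cosetCoeff N (q.out⁻¹ * u) y) _ (hdvd y hj _)
    rw [mul_assoc, cosetCoeff_incl_mul, map_mul φ, cosetCoeff_single_mul,
      coeff_mul_of_dvd (hdvd x hi _) (by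
        have := dvd_add ((pow_dvd_pow X (Nat.le_succ _)).trans hc)
          (hdvd y hj (q.out⁻¹ * u))
        simpa using this),
      coeff_of_dvd hc (by omega)]
    rw [symbol_apply, symbol_apply]
    have hmk : (QuotientGroup.mk (q⁻¹ * QuotientGroup.mk u : G ⧸ N).out : G ⧸ N) =
        QuotientGroup.mk (q.out⁻¹ * u) := by simp
    exact congrArg _ (hshift y _ (hdvd y hj) _ _ hmk)
  rcases mul_eq_zero.1 hprod with h | h
  · exact hsym x hi h
  · exact hsym y hj h

section Model

variable (p : ℕ) [Fact p.Prime] [CharP K p] {σ : Type}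

variable (K σ) in
/-- The ring of leading terms. -/
abbrev Sym : Type := MonoidAlgebra K (Multiplicative (σ →₀ ℕ))

/-- A variable of the ring of leading terms. -/
noncomputable def tvar (j : σ) : Sym K σ :=
  single (Multiplicative.ofAdd (Finsupp.single j 1)) 1

/-- The units congruent to one modulo a power of the variable. -/
def near (R : Type) [CommRing R] (w : ℕ) : Subgroup (PowerSeries R)ˣ where
  carrier := {u | X ^ w ∣ (u : PowerSeries R) - 1}
  one_mem' := by simp
  mul_mem' := by
    intro u v hu hv
    show _ ∣ ((u * v : (PowerSeries R)ˣ) : PowerSeries R) - 1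
    rw [Units.val_mul, show (u : PowerSeries R) * v - 1 = ((u : PowerSeries R) - 1) * v + (v - 1)
      by ring]
    exact dvd_add (hu.mul_right _) hv
  inv_mem' := by
    intro u hu
    show _ ∣ ((u⁻¹ : (PowerSeries R)ˣ) : PowerSeries R) - 1
    have : ((u⁻¹ : (PowerSeries R)ˣ) : PowerSeries R) - 1 =
        -((u⁻¹ : (PowerSeries R)ˣ) : PowerSeries R) * ((u : PowerSeries R) - 1) := by
      rw [mul_sub, neg_mul, Units.inv_mul]; ring
    rw [this]
    exact hu.mul_left _

lemma mem_near {R : Type} [CommRing R] {w : ℕ} {u : (PowerSeries R)ˣ} :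
    u ∈ near R w ↔ X ^ w ∣ (u : PowerSeries R) - 1 := Iff.rfl

variable (W : σ → ℕ)

variable (K) in
/-- The unit attached to a basis vector. -/
noncomputable def gen (j : σ) : (PowerSeries (Sym K σ))ˣ :=
  ((PowerSeries.isUnit_iff_constantCoeff (φ := 1 + C (tvar j) * X ^ (W j + 1))).2 (by simp)).unit

@[simp] lemma gen_val (j : σ) :
    ((gen K W j : (PowerSeries (Sym K σ))ˣ) : PowerSeries (Sym K σ)) =
      1 + C (tvar j) * X ^ (W j + 1) := rfl

variable (K) in
/-- The units attached to exponent vectors. -/
noncomputable def vec : Multiplicative (σ →₀ ℤ) →* (PowerSeries (Sym K σ))ˣ :=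
  AddMonoidHom.toMultiplicativeLeft
    (Finsupp.liftAddHom fun j =>
      zmultiplesHom (Additive (PowerSeries (Sym K σ))ˣ) (Additive.ofMul (gen K W j)))

lemma vec_single (j : σ) (k : ℤ) :
    vec K W (Multiplicative.ofAdd (Finsupp.single j k)) = gen K W j ^ k := by
  simp [vec]

lemma vec_mem (w : ℕ) (c : σ →₀ ℤ) (h : ∀ i, gen K W i ^ c i ∈ near (Sym K σ) w) :
    vec K W (Multiplicative.ofAdd c) ∈ near (Sym K σ) w := by
  classical
  have : c = ∑ i ∈ c.support, Finsupp.single i (c i) := (Finsupp.sum_single c).symm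
  rw [this, ofAdd_sum, map_prod]
  exact Subgroup.prod_mem _ fun i _ => by rw [vec_single]; exact h i

/-- The leading monomial map. -/
noncomputable def mono (m : σ →₀ ℕ) : Sym K σ := single (Multiplicative.ofAdd m) 1

/-- Free abelian kernels with unipotent action mod p. -/
theorem noZeroDivisors_of_unipotent (N : Subgroup G) [N.Normal] (hN : UnipotentModP p N)
    [NoZeroDivisors (MonoidAlgebra K (G ⧸ N))] : NoZeroDivisors (MonoidAlgebra K G) := by
  classical
  obtain ⟨σ, e, m, l, hl, hact⟩ := hN
  let _ : CommGroup N :=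
    { (inferInstance : Group N) with
      mul_comm := fun a b => e.injective (by rw [map_mul, map_mul, mul_comm]) }
  let W : σ → ℕ := fun j => m + l j
  let φ : MonoidAlgebra K N →ₐ[K] PowerSeries (Sym K σ) :=
    MonoidAlgebra.lift K _ N ((Units.coeHom _).comp ((vec K W).comp e.toMonoidHom))
  have hφ : ∀ (n : N) (a : K),
      φ (single n a) = a • ((vec K W (e n) : (PowerSeries (Sym K σ))ˣ) : PowerSeries (Sym K σ)) :=
    fun n a => by simp [φ]
  let b : σ → N := fun j => e.symm (Multiplicative.ofAdd (Finsupp.single j 1))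
  have hb : ∀ j, vec K W (e (b j)) = gen K W j := fun j => by simp [b, vec_single]
  let ρ : MvPolynomial σ K →ₐ[K] MonoidAlgebra K N :=
    MvPolynomial.aeval fun j => single (b j) (1 : K) - 1
  let wt : (σ →₀ ℕ) → ℕ := fun u => u.sum fun j k => k * (W j + 1)
  have hgrp : ∀ n : N, X ∣ φ (single n 1) - 1 := by
    intro n
    have : vec K W (e n) ∈ near (Sym K σ) 1 := by
      rw [← ofAdd_toAdd (e n)]
      refine vec_mem W 1 _ fun i => Subgroup.zpow_mem _ ?_ _
      rw [mem_near, gen_val, add_sub_cancel_left]
      exact (pow_dvd_pow X (Nat.le_add_left 1 _)).mul_left _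
    simpa [hφ, near] using this
  -- monomials
  have hA : ∀ u : σ →₀ ℕ, φ (ρ (MvPolynomial.monomial u 1)) = C (mono u) * X ^ wt u ∧
      ∀ t, X ^ (wt u + 1) ∣ φ (conjMap N t (ρ (MvPolynomial.monomial u 1))) -
        φ (ρ (MvPolynomial.monomial u 1)) := by
    have hmul : ∀ (u v : σ →₀ ℕ),
        (φ (ρ (MvPolynomial.monomial u 1)) = C (mono u) * X ^ wt u ∧
          ∀ t, X ^ (wt u + 1) ∣ φ (conjMap N t (ρ (MvPolynomial.monomial u 1))) -
            φ (ρ (MvPolynomial.monomial u 1))) →
        (φ (ρ (MvPolynomial.monomial v 1)) = C (mono v) * X ^ wt v ∧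
          ∀ t, X ^ (wt v + 1) ∣ φ (conjMap N t (ρ (MvPolynomial.monomial v 1))) -
            φ (ρ (MvPolynomial.monomial v 1))) →
        (φ (ρ (MvPolynomial.monomial (u + v) 1)) = C (mono (u + v)) * X ^ wt (u + v) ∧
          ∀ t, X ^ (wt (u + v) + 1) ∣ φ (conjMap N t (ρ (MvPolynomial.monomial (u + v) 1))) -
            φ (ρ (MvPolynomial.monomial (u + v) 1))) := by
      intro u v hu hv
      have hwt : wt (u + v) = wt u + wt v :=
        Finsupp.sum_add_index' (by simp) (by intro i x y; ring)
      have hm : MvPolynomial.monomial (u + v) (1 : K) =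
          MvPolynomial.monomial u 1 * MvPolynomial.monomial v 1 := by
        rw [MvPolynomial.monomial_mul, mul_one]
      have hmono : mono (K := K) (u + v) = mono u * mono v := by
        simp [mono, single_mul_single]
      refine ⟨?_, fun t => ?_⟩
      · rw [hm, map_mul, map_mul, hu.1, hv.1, hwt, hmono, map_mul, pow_add]
        ring
      · rw [hm]
        simp only [map_mul]
        obtain ⟨r, hr⟩ := hu.2 t
        obtain ⟨s, hs⟩ := hv.2 t
        rw [sub_eq_iff_eq_add.1 hr, sub_eq_iff_eq_add.1 hs, hu.1, hv.1, hwt]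
        exact ⟨C (mono v) * r + C (mono u) * s + X * r * s, by ring⟩
    intro u
    induction u using Finsupp.induction_linear with
    | zero =>
        refine ⟨by simp [wt, mono, ← one_def], fun t => by simp⟩
    | add u v hu hv => exact hmul u v hu hv
    | single j k =>
      induction k with
      | zero => simpa using (⟨by simp [wt, mono, ← one_def], fun t => by simp⟩ :
          φ (ρ (MvPolynomial.monomial 0 1)) = C (mono 0) * X ^ wt 0 ∧
          ∀ t, X ^ (wt 0 + 1) ∣ φ (conjMap N t (ρ (MvPolynomial.monomial 0 1))) -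
            φ (ρ (MvPolynomial.monomial 0 1)))
      | succ k ih =>
        rw [Finsupp.single_add]
        refine hmul _ _ ih ?_
        have hX : ρ (MvPolynomial.monomial (Finsupp.single j 1) 1) = single (b j) (1 : K) - 1 := by
          show ρ (MvPolynomial.X j) = _
          simp [ρ]
        have hval : φ (single (b j) (1 : K) - 1) = C (tvar j) * X ^ (W j + 1) := by
          rw [map_sub, map_one, hφ, one_smul, hb, gen_val]; ring
        have hwt : wt (Finsupp.single j 1) = W j + 1 := by simp [wt]
        rw [hX, hwt, hval]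
        refine ⟨rfl, fun t => ?_⟩
        -- the generator
        let n' := (MulAut.conjNormal t : MulAut N) (b j)
        have hc : conjMap N t (single (b j) (1 : K) - 1) = single n' 1 - 1 := by
          simp [conjMap, n', mapDomain_single, map_sub]
        rw [hc, map_sub, map_one, hφ, one_smul]
        let c := (e n').toAdd
        have hv : vec K W (Multiplicative.ofAdd (c - Finsupp.single j 1)) ∈
            near (Sym K σ) (W j + 1 + 1) := by
          refine vec_mem W _ _ fun i => ?_
          rcases Nat.lt_or_ge (l j) (l i) with hij | hij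
          · refine Subgroup.zpow_mem _ ?_ _
            rw [mem_near, gen_val, add_sub_cancel_left]
            exact (pow_dvd_pow X (by simp only [W]; omega)).mul_left _
          · obtain ⟨d, hd⟩ := hact t j i hij
            rw [show (c - Finsupp.single j 1 : σ →₀ ℤ) i = (p : ℤ) * d from
              (Finsupp.sub_apply _ _ i).trans hd, zpow_mul, zpow_natCast]
            refine Subgroup.zpow_mem _ ?_ _
            rw [mem_near]
            have : CharP (PowerSeries (Sym K σ)) p :=
              charP_of_injective_algebraMap (algebraMap K (PowerSeries (Sym K σ))).injective p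
            rw [Units.val_pow_eq_pow_val, gen_val, add_pow_char, one_pow, add_sub_cancel_left,
              mul_pow, ← pow_mul]
            refine (pow_dvd_pow X ?_).mul_left _
            have h2 := (Fact.out : p.Prime).two_le
            have := hl j
            simp only [W]
            nlinarith
        have hsplit : vec K W (e n') =
            gen K W j * vec K W (Multiplicative.ofAdd (c - Finsupp.single j 1)) := by
          rw [← zpow_one (gen K W j), ← vec_single, ← map_mul, ← ofAdd_add, add_sub_cancel]
          simp [c]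
        rw [hsplit, Units.val_mul]
        have hv' : X ^ (W j + 1 + 1) ∣ ((vec K W (Multiplicative.ofAdd (c - Finsupp.single j 1)) :
            (PowerSeries (Sym K σ))ˣ) : PowerSeries (Sym K σ)) - 1 := hv
        obtain ⟨r, hr⟩ := hv'
        rw [sub_eq_iff_eq_add.1 hr, gen_val]
        exact ⟨(1 + C (tvar j) * X ^ (W j + 1)) * r, by ring⟩
  have hP : ∀ P : MvPolynomial σ K, φ (ρ P) =
      ∑ u ∈ P.support, C (single (Multiplicative.ofAdd u) (P.coeff u)) * X ^ wt u := by
    intro P
    conv_lhs => rw [P.as_sum, map_sum, map_sum]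
    refine Finset.sum_congr rfl fun u _ => ?_
    rw [← mul_one (P.coeff u), ← smul_eq_mul, ← MvPolynomial.smul_monomial, map_smul, map_smul,
      (hA u).1, show (single (Multiplicative.ofAdd u) (P.coeff u • (1 : K)) : Sym K σ) =
        P.coeff u • mono u by simp [mono], ← smul_mul_assoc]
    congr 1
    ext d
    simp [PowerSeries.coeff_C]
  have hlow : ∀ (P : MvPolynomial σ K) (d : ℕ), X ^ d ∣ φ (ρ P) → ∀ u ∈ P.support, d ≤ wt u := by
    intro P d hd u hu
    by_contra hlt
    have h0 := PowerSeries.X_pow_dvd_iff.1 hd (wt u) (not_le.1 hlt)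
    rw [hP, map_sum] at h0
    have h1 := congrArg (fun z : Sym K σ => z.coeff (Multiplicative.ofAdd u)) h0
    simp only [coeff_sum, Finsupp.finsetSum_apply, coeff_zero, Finsupp.zero_apply] at h1
    rw [Finset.sum_eq_single u] at h1
    · exact MvPolynomial.mem_support_iff.1 hu (by
        simpa [PowerSeries.coeff_C_mul_X_pow] using h1)
    · intro v _ hne
      simp only [PowerSeries.coeff_C_mul_X_pow]
      split_ifs <;> simp [Finsupp.single_eq_of_ne, hne.symm]
    · exact fun h => absurd hu h
  -- every element becomes a polynomial after a translation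
  have hloc : ∀ a : MonoidAlgebra K N, ∃ (z : N) (P Q : MvPolynomial σ K),
      a * single z 1 = ρ P ∧ single z 1 = ρ Q := by
    have hmon : ∀ u : σ →₀ ℕ, ∃ Q, ρ Q = single
        (e.symm (Multiplicative.ofAdd (u.mapRange (fun k : ℕ => (k : ℤ)) rfl))) (1 : K) := by
      intro u
      induction u using Finsupp.induction_linear with
      | zero => exact ⟨1, by simp [one_def]⟩
      | add u v hu hv =>
          obtain ⟨Q₁, h₁⟩ := hu
          obtain ⟨Q₂, h₂⟩ := hv
          exact ⟨Q₁ * Q₂, by
            rw [map_mul, h₁, h₂, single_mul_single, one_mul, Finsupp.mapRange_add (by simp),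
              ofAdd_add, map_mul]⟩
      | single j k =>
          refine ⟨(MvPolynomial.X j + 1) ^ k, ?_⟩
          rw [map_pow, map_add, map_one, show ρ (MvPolynomial.X j) = single (b j) (1 : K) - 1 from
            MvPolynomial.aeval_X _ j, sub_add_cancel, single_pow, one_pow]
          congr 1
          simp [b, ← map_pow, ← ofAdd_nsmul]
    intro a
    induction a using MonoidAlgebra.induction_linear with
    | zero => exact ⟨1, 0, 1, by simp, by simp [one_def]⟩
    | add a a' ha ha' =>
        obtain ⟨z, P, Q, h1, h2⟩ := ha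
        obtain ⟨z', P', Q', h1', h2'⟩ := ha'
        refine ⟨z * z', P * Q' + P' * Q, Q * Q', ?_, ?_⟩
        · simp only [map_add, map_mul, ← h1, ← h2, ← h1', ← h2', add_mul, mul_assoc,
            single_mul_single, one_mul]
          rw [show z' * z = z * z' from e.injective (by rw [map_mul, map_mul, mul_comm])]
        · rw [map_mul, ← h2, ← h2', single_mul_single, one_mul]
    | single n c =>
        let v := (e n).toAdd
        obtain ⟨Q, hQ⟩ := hmon (v.mapRange (fun k : ℤ => (-k).toNat) rfl)
        obtain ⟨P, hP'⟩ := hmon (v.mapRange Int.toNat rfl)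
        refine ⟨_, c • P, Q, ?_, hQ.symm⟩
        rw [map_smul, hP', single_mul_single, smul_single']
        congr 1
        apply e.injective
        apply Multiplicative.toAdd.injective
        ext i
        simp [v]
        omega
  refine noZeroDivisors_of_symbol N φ ?_ hgrp ?_ ?_
  · rw [injective_iff_map_eq_zero]
    intro a ha
    obtain ⟨z, P, Q, h1, -⟩ := hloc a
    have h0 : φ (ρ P) = 0 := by rw [← h1, map_mul, ha, zero_mul]
    have hP0 : P = 0 := MvPolynomial.support_eq_empty.1 (Finset.eq_empty_of_forall_notMem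
      fun u hu => absurd (hlow P (wt u + 1) (by rw [h0]; exact dvd_zero _) u hu) (by omega))
    rw [hP0, map_zero] at h1
    simpa [mul_assoc, single_mul_single, ← one_def] using
      congrArg (fun w => w * single z⁻¹ (1 : K)) h1
  · intro t a d hd
    obtain ⟨z, P, Q, h1, -⟩ := hloc a
    have h2 : X ^ d ∣ φ (ρ P) := by rw [← h1, map_mul]; exact hd.mul_right _
    have h3 : X ^ (d + 1) ∣ φ (conjMap N t (ρ P)) - φ (ρ P) := by
      conv => rhs; rw [P.as_sum]; simp only [map_sum, ← Finset.sum_sub_distrib]
      refine Finset.dvd_sum fun u hu => ?_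
      rw [← mul_one (P.coeff u), ← smul_eq_mul, ← MvPolynomial.smul_monomial]
      simp only [map_smul, ← smul_sub]
      rw [Algebra.smul_def]
      exact ((pow_dvd_pow X (by have := hlow P d h2 u hu; omega)).trans ((hA u).2 t)).mul_left _
    rw [← h1] at h3
    simp only [map_mul] at h3
    obtain ⟨z', hz'⟩ : ∃ z', conjMap N t (single z (1 : K)) = single z' 1 :=
      ⟨_, mapDomain_single⟩
    rw [hz'] at h3
    obtain ⟨r, hr⟩ := hgrp z
    obtain ⟨r', hr'⟩ := hgrp z'
    obtain ⟨q, hq⟩ := hd
    obtain ⟨s, hs⟩ := h3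
    have hu' : IsUnit (φ (single z' (1 : K))) := by
      rw [hφ, one_smul]; exact Units.isUnit _
    refine (IsUnit.dvd_mul_right hu').1 ⟨s + q * (r - r'), ?_⟩
    linear_combination hs + φ a * hr - φ a * hr' + X * (r - r') * hq
  · -- the symbols form a polynomial ring over K[Q]
    refine Function.Injective.noZeroDivisors
      (((MonoidAlgebra.curryRingEquiv (R := K) (M := G ⧸ N)
          (N := Multiplicative (σ →₀ ℕ))).symm.trans
        (MonoidAlgebra.mapDomainRingEquiv K MulEquiv.prodComm)).trans
        MonoidAlgebra.curryRingEquiv)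
      (RingEquiv.injective _) (map_zero _) (map_mul _)

end Model

end Vale.Agent.GroupRingKernels
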